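import Crest.Agent.N334.Sw.Exp
import Crest.Agent.N334.I.Mix
import Crest.Agent.N334.T.Marg
import Crest.Agent.N334.Md.Laws

/-!
# Row 334, bridge from the engine `T` to `Sw.BPat`, `Sw.LCat`: change of coordinates
-/

set_option autoImplicit false

open MeasureTheory Complex Finset Function
open scoped ENNReal

noncomputable section

namespace Crest.Agent.N334.Br

open G I Sw

/-- from `a - i (η + γ)` to `a - E - i γ` -/
def toT (E η : ℝ) (t : ℂ) : ℂ := ⟨t.re - E, -ga η t⟩

/-- and back -/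
def frT (E η : ℝ) (z : ℂ) : ℂ := ⟨z.re + E, -(η + |z.im|)⟩

/-- the port matrix in the coordinates of `T` -/
def KT (L : G.Lat) (E η : ℝ) (w : L.X → ℂ) : L.Mat := Kw L E η fun x => frT E η (w x)

/-- average in a product ensemble -/
def Ip (L : G.Lat) (E η : ℝ) (μ : L.X → Measure ℂ) (F : L.Mat → ℝ) : ℝ :=
  ∫ w, F (Kw L E η w) ∂Measure.pi μ

/-- the hopping matrix is the adjacency matrix of `G` -/
def Adj (L : G.Lat) (G : SimpleGraph L.X) : Prop :=
  ∀ x y, L.A x y = if y ∈ T.nbr G x then 1 else 0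

variable {L : G.Lat} {E η : ℝ}

@[simp] theorem toT_re (t : ℂ) : (toT E η t).re = t.re - E := rfl
@[simp] theorem toT_im (t : ℂ) : (toT E η t).im = -ga η t := rfl
@[simp] theorem frT_re (z : ℂ) : (frT E η z).re = z.re + E := rfl
theorem abs_toT_im (t : ℂ) : |(toT E η t).im| = ga η t := by
  rw [toT_im, abs_neg, abs_of_nonneg (ga_nonneg _ _)]
@[simp] theorem ga_frT (z : ℂ) : ga η (frT E η z) = |z.im| := by simp [ga, frT]

@[fun_prop] theorem measurable_toT : Measurable (toT E η) := by
  have : toT E η = fun t : ℂ => ((t.re - E : ℝ) : ℂ) + ((-ga η t : ℝ) : ℂ) * I := by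
    funext t; apply Complex.ext <;> simp
  rw [this]; fun_prop

@[fun_prop] theorem measurable_frT : Measurable (frT E η) := by
  have : frT E η = fun t : ℂ => ((t.re + E : ℝ) : ℂ) + ((-(η + |t.im|) : ℝ) : ℂ) * I := by
    funext t; apply Complex.ext <;> simp [frT]
  rw [this]; fun_prop

theorem toT_pt {γ : ℝ} (hγ : 0 ≤ γ) (a : ℝ) : toT E η (pt (η + γ) a) = Md.sh E γ a := by
  apply Complex.ext <;> simp [ga_pt η a hγ, pt_re]

theorem map_lift {γ : ℝ} (hγ : 0 ≤ γ) (ν : Measure ℝ) :
    (lift (η + γ) ν).map (toT E η) = Md.tl E γ ν := by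
  unfold I.lift Md.tl
  rw [Measure.map_map measurable_toT (measurable_pt _)]
  congr 1; funext a; exact toT_pt hγ a

theorem map_lift_zero (ν : Measure ℝ) : (lift η ν).map (toT E η) = Md.tl E 0 ν := by
  simpa using map_lift (E := E) (η := η) le_rfl ν

instance (μ : Measure ℂ) [IsProbabilityMeasure μ] : IsProbabilityMeasure (μ.map (toT E η)) :=
  Measure.isProbabilityMeasure_map measurable_toT.aemeasurable

theorem KT_toT (w : L.X → ℂ) : KT L E η (fun x => toT E η (w x)) = Kw L E η w := by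
  simp only [KT, Kw, ga_frT, abs_toT_im, frT_re, toT_re, sub_add_cancel]

theorem KT_update (w : L.X → ℂ) (y : L.X) (z : ℂ) :
    KT L E η (update w y z) = Kw L E η (update (fun x => frT E η (w x)) y (frT E η z)) := by
  unfold KT; congr 1; funext x; by_cases h : x = y <;> simp [h]

theorem port_KT (hη : 0 < η) (w : L.X → ℂ) : IsPort (KT L E η w) := port_Kw L E hη _

theorem Gr_eq {G : SimpleGraph L.X} (hA : Adj L G) (w : L.X → ℂ) :
    L.Gr (L.wv E η (fun x => |(w x).im|) fun x => (w x).re + E) = (T.Mx G η w)⁻¹ := by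
  unfold Lat.Gr T.Mx
  congr 2
  · ext x y; simp only [Matrix.map_apply, hA x y, Matrix.of_apply]; split_ifs <;> simp
  · congr 1; funext x; apply Complex.ext <;> simp [Lat.wv]; ring

/-- `4 · strength · strength · |G|²` -/
theorem cc_KT {G : SimpleGraph L.X} (hA : Adj L G) (hη : 0 < η) (w : L.X → ℂ) (y x : L.X)
    (β : Bool) : cc (KT L E η w) (y, true) (x, β) =
      4 * |(w y).im| * (if β then |(w x).im| else η) * ‖T.Gr G η w y x‖ ^ 2 := by
  simp only [cc, KT, Kw, Lat.Km, ga_frT, frT_re, Gr_eq hA, norm_mul, mul_pow, Complex.norm_real,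
    Real.norm_eq_abs, sq_abs, Complex.norm_I, Complex.norm_ofNat, T.Gr]
  rw [Real.sq_sqrt (show 0 ≤ L.str η _ (y, true) from abs_nonneg _),
    Real.sq_sqrt (show 0 ≤ L.str η _ (x, β) by cases β; exacts [hη.le, abs_nonneg _])]
  cases β <;> simp [N334.G.Lat.str] <;> norm_num

theorem measurable_Kw : Measurable (Kw L E η) := by
  refine measurable_pi_lambda _ fun p => measurable_pi_lambda _ fun q => ?_
  have hs : ∀ p : L.P, Measurable fun w : L.X → ℂ => L.str η (fun x => ga η (w x)) p := fun p => by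
    unfold G.Lat.str; split_ifs <;> fun_prop
  have hM : ∀ x y, Measurable fun w : L.X → ℂ => (L.A.map Complex.ofReal +
      Matrix.diagonal (L.wv E η (fun x => ga η (w x)) fun x => (w x).re)) x y := fun x y => by
    simp only [Matrix.add_apply, Matrix.diagonal_apply, Lat.wv]
    split_ifs <;> fun_prop
  have hc : Measurable fun M : L.X → L.X → ℂ => (Matrix.of M)⁻¹ p.1 q.1 := by
    simp only [Matrix.inv_def, Ring.inverse_eq_inv', Matrix.smul_apply, smul_eq_mul]
    have h0 : Continuous fun M : L.X → L.X → ℂ => Matrix.of M := continuous_id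
    exact h0.matrix_det.measurable.inv.mul (h0.matrix_adjugate.matrix_elem _ _).measurable
  have h1 := hs p
  have h2 := hs q
  have h3 := hc.comp (measurable_pi_lambda _ fun x => measurable_pi_lambda _ fun y => hM x y)
  exact Measurable.mul (by fun_prop) h3

theorem measurable_KT : Measurable (KT L E η) :=
  measurable_Kw.comp (measurable_pi_lambda _ fun x => measurable_frT.comp (measurable_pi_apply x))

theorem bm_Kw (hη : 0 < η) {F : L.Mat → ℝ} (hF : Nice F) : BM fun w => F (Kw L E η w) :=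
  hF.bm measurable_Kw (port_Kw L E hη)

theorem Ip_nonneg (hη : 0 < η) (μ : L.X → Measure ℂ) {F : L.Mat → ℝ}
    (h0 : ∀ K, IsPort K → 0 ≤ F K) : 0 ≤ Ip L E η μ F :=
  integral_nonneg fun _ => h0 _ (port_Kw L E hη _)

theorem Ip_eq_lint (hη : 0 < η) (μ : L.X → Measure ℂ) [∀ x, IsProbabilityMeasure (μ x)]
    {F : L.Mat → ℝ} (hF : Nice F) (h0 : ∀ K, IsPort K → 0 ≤ F K) :
    ENNReal.ofReal (Ip L E η μ F) =
      ∫⁻ w, ENNReal.ofReal (F (KT L E η w)) ∂Measure.pi fun x => (μ x).map (toT E η) := by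
  rw [Ip, ofReal_integral_eq_lintegral_ofReal ((bm_Kw hη hF).integrable _)
    (ae_of_all _ fun _ => h0 _ (port_Kw L E hη _)),
    ← (measurePreserving_pi μ (fun x => (μ x).map (toT E η))
      fun _ => measurable_toT.measurePreserving _).lintegral_comp
      (f := fun w => ENNReal.ofReal (F (KT L E η w))) (hF.meas.comp measurable_KT).ennreal_ofReal]
  simp only [KT_toT]

theorem Iw_eq {h : ℝ} (hh : 0 < h) (hη : 0 < η) (lab : Lab L.X h) (μ : L.X → Measure ℂ)
    [∀ x, IsProbabilityMeasure (μ x)] {F : L.Mat → ℝ} (hF : Nice F) :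
    Iw lab E η μ F = ∑ l, lab.P l * Ip L E η (lab.law η μ l) F := by
  have := lab.isProb_law hh η μ
  exact lab.integral_ens η μ fun l => (bm_Kw hη hF).integrable _

theorem temp_KT {W : L.Mat → ℝ} {k : ℝ} (h : Temp E η W k) (k0 : 0 ≤ k) (k1 : k ≤ 1) (b : L.X) :
    T.Temp (fun w => ENNReal.ofReal (W (KT L E η w))) b k :=
  ⟨(h.1.meas.comp measurable_KT).ennreal_ofReal, k0, k1, fun w x z _ => by
    beta_reduce
    rw [← ENNReal.ofReal_mul (Real.exp_pos _).le, KT_update]
    exact ENNReal.ofReal_le_ofReal (h.2.2 _ _ _)⟩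

theorem temp_KT_update {W : L.Mat → ℝ} {k : ℝ} (hη : 0 < η) (h : Temp E η W k) (k0 : 0 ≤ k)
    (k1 : k ≤ 1) (y : L.X) (v : ℂ) (b : L.X) :
    T.Temp (fun w => ENNReal.ofReal (W (KT L E η (update w y v)))) b k :=
  ⟨(h.1.meas.comp (measurable_KT.comp measurable_update_left)).ennreal_ofReal, k0, k1,
    fun w x z _ => by
      beta_reduce
      rw [← ENNReal.ofReal_mul (Real.exp_pos _).le]
      refine ENNReal.ofReal_le_ofReal ?_
      rcases eq_or_ne x y with rfl | hx
      · rw [update_idem]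
        exact le_mul_of_one_le_left (h.2.1 _ (port_KT hη _)) (Real.one_le_exp k0)
      · rw [update_comm hx, KT_update]; exact h.2.2 _ _ _⟩

end Crest.Agent.N334.Br
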