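import Crest.Agent.N334.Br.Defs
import Crest.Agent.N334.T.LC

/-!
# Row 334, bridge from the engine `T` to `Sw.BPat`, `Sw.LCat`: the local comparison of two ports (leaf Br-X2)
-/

set_option autoImplicit false

open MeasureTheory Complex Finset Function
open scoped ENNReal

noncomputable section

namespace Crest.Agent.N334.Br

open G I Sw

/-- the loss of the local comparison -/
def loss (Λ n k lam : ℝ) (ρ : ℕ) : ℝ :=
  Λ ^ 30 * n ^ 3 * Real.exp (2 * k * n + 36 * n * Real.log Λ + 3000 * lam * (ρ + 4004) ^ 2)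

namespace X2
variable {L : G.Lat} {E η : ℝ}

lemma KT_step {W : L.Mat → ℝ} {k : ℝ} (h : Temp E η W k) (w : L.X → ℂ) (x : L.X) (z : ℂ) :
    ENNReal.ofReal (W (KT L E η (update w x z))) ≤
      ENNReal.ofReal (Real.exp k) * ENNReal.ofReal (W (KT L E η w)) := by
  rw [← ENNReal.ofReal_mul (Real.exp_pos _).le, KT_update]
  exact ENNReal.ofReal_le_ofReal (h.2.2 _ _ _)

lemma le_of_eq_off {V : Type} [DecidableEq V] {W : (V → ℂ) → ℝ≥0∞} {k : ℝ}
    (hW : ∀ w x z, W (update w x z) ≤ ENNReal.ofReal (Real.exp k) * W w) (R : Finset V) :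
    ∀ w w' : V → ℂ, (∀ x ∉ R, w x = w' x) →
      W w ≤ ENNReal.ofReal (Real.exp (k * R.card)) * W w' := by
  induction R using Finset.induction_on with
  | empty => intro w w' h; simp [show w = w' from funext fun x => h x (notMem_empty x)]
  | insert x R hx ih =>
    intro w w' h
    have h1 := ih (update w x (w' x)) w' fun v hv => by
      by_cases hvx : v = x
      · simp [hvx]
      · rw [update_of_ne hvx]; exact h v (by simp [hvx, hv])
    have h2 := hW (update w x (w' x)) x (w x)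
    rw [update_idem, update_eq_self] at h2
    refine h2.trans ((mul_le_mul_right h1 _).trans_eq ?_)
    rw [← mul_assoc, ← ENNReal.ofReal_mul (Real.exp_pos _).le, ← Real.exp_add,
      card_insert_of_notMem hx]
    congr 3; push_cast; ring

lemma lint_le {V : Type} [Fintype V] [DecidableEq V] {W : (V → ℂ) → ℝ≥0∞} {k : ℝ}
    (hm : Measurable W) (hW : ∀ w x z, W (update w x z) ≤ ENNReal.ofReal (Real.exp k) * W w)
    (μ μ' : V → Measure ℂ) [∀ x, IsProbabilityMeasure (μ x)] [∀ x, IsProbabilityMeasure (μ' x)]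
    (R : Finset V) (h : ∀ x ∉ R, μ x = μ' x) : ∫⁻ w, W w ∂Measure.pi μ ≤
      ENNReal.ofReal (Real.exp (2 * k * R.card)) * ∫⁻ w, W w ∂Measure.pi μ' := by
  have e : ENNReal.ofReal (Real.exp (2 * k * R.card)) =
      ENNReal.ofReal (Real.exp (k * R.card)) * ENNReal.ofReal (Real.exp (k * R.card)) := by
    rw [← ENNReal.ofReal_mul (Real.exp_pos _).le, ← Real.exp_add]; congr 2; ring
  refine (lintegral_mono fun w => le_of_eq_off hW R w (T.fz 0 R w)
    fun _ hx => (T.fz_notMem hx).symm).trans ?_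
  rw [lintegral_const_mul' _ _ ENNReal.ofReal_ne_top, T.lint_fz_congr μ μ' 0 R h hm, e, mul_assoc,
    ← lintegral_const_mul' _ W ENNReal.ofReal_ne_top]
  exact mul_le_mul_right (lintegral_mono fun w =>
    le_of_eq_off hW R _ w fun _ hx => T.fz_notMem hx) _

lemma real_of {a b d A B : ℝ} (hb : 0 ≤ b) (hd : 0 ≤ d) (hA : 0 ≤ A) (hB : 0 ≤ B)
    (h : ENNReal.ofReal a ≤ ENNReal.ofReal A * ENNReal.ofReal b +
      ENNReal.ofReal B * ENNReal.ofReal d) : a ≤ A * b + B * d := by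
  rwa [← ENNReal.ofReal_mul hA, ← ENNReal.ofReal_mul hB,
    ← ENNReal.ofReal_add (by positivity) (by positivity),
    ENNReal.ofReal_le_ofReal_iff (by positivity)] at h

lemma Ip_lint (hη : 0 < η) (μ : L.X → Measure ℂ) [∀ x, IsProbabilityMeasure (μ x)]
    {F : L.Mat → ℝ} (hF : Nice F) (h0 : ∀ K, IsPort K → 0 ≤ F K) :
    ENNReal.ofReal (Ip L E η μ F) = ∫⁻ w, ENNReal.ofReal (F (Kw L E η w)) ∂Measure.pi μ :=
  ofReal_integral_eq_lintegral_ofReal ((bm_Kw hη hF).integrable _)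
    (ae_of_all _ fun _ => h0 _ (port_Kw L E hη _))

lemma exists_cond (m : Measure ℂ) [IsProbabilityMeasure m] (S : Set ℂ) {p : ℝ≥0∞} (hp : m S ≤ p) :
    ∃ ν : Measure ℂ, IsProbabilityMeasure ν ∧ ν ≪ m ∧ m.restrict S ≤ p • ν := by
  by_cases h : m S = 0
  · exact ⟨m, inferInstance, .rfl, by rw [Measure.restrict_eq_zero.2 h]; exact bot_le⟩
  · refine ⟨ProbabilityTheory.cond m S, ProbabilityTheory.cond_isProbabilityMeasure h,
      ProbabilityTheory.cond_absolutelyContinuous, fun A => ?_⟩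
    rw [ProbabilityTheory.cond, smul_smul, Measure.smul_apply, smul_eq_mul]
    refine le_mul_of_one_le_left' ?_
    rw [← ENNReal.mul_inv_cancel h (measure_ne_top m S)]
    exact mul_le_mul_left hp _

lemma Ip_cond (hη : 0 < η) (μ : L.X → Measure ℂ) [∀ x, IsProbabilityMeasure (μ x)]
    {W : L.Mat → ℝ} (hW : Nice W) (h0 : ∀ K, IsPort K → 0 ≤ W K) (o : L.X) (q : L.P)
    {ν : Measure ℂ} [IsProbabilityMeasure ν] {p : ℝ} (hp : 0 ≤ p)
    (hν : (μ o).restrict {t | 0 < ga η t} ≤ ENNReal.ofReal p • ν) :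
    Ip L E η μ (fun K => W K * cc K (o, true) q) ≤
      p * Ip L E η (update μ o ν) fun K => W K * cc K (o, true) q := by
  have hN := hW.mul (nice_cc (o, true) q)
  have hF : ∀ K, IsPort K → 0 ≤ W K * cc K (o, true) q := fun K hK =>
    mul_nonneg (h0 K hK) (cc_nonneg _ _ _)
  have hm := (hN.meas.comp (measurable_Kw (L := L) (E := E) (η := η))).ennreal_ofReal
  rw [← ENNReal.ofReal_le_ofReal_iff (mul_nonneg hp (Ip_nonneg hη _ hF)), ENNReal.ofReal_mul hp,
    Ip_lint hη _ hN hF, Ip_lint hη _ hN hF]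
  refine (lintegral_pi_resample μ o hm).trans_le (le_trans ?_
    (mul_le_mul_right (lintegral_pi_update μ o ν hm).ge _))
  rw [← lintegral_const_mul' _ _ ENNReal.ofReal_ne_top]
  refine lintegral_mono fun w => ?_
  refine le_trans ?_ ((lintegral_mono' hν le_rfl).trans_eq (lintegral_smul_measure _ _))
  rw [← lintegral_indicator (measurableSet_lt measurable_const (measurable_ga η))]
  refine lintegral_mono fun t => ?_
  by_cases ht : 0 < ga η t
  · rw [Set.indicator_of_mem (show t ∈ {t | 0 < ga η t} from ht)]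
  · have h1 : ga η t = 0 := le_antisymm (not_lt.1 ht) (ga_nonneg _ _)
    simp [cc, Kw, Lat.Km, G.Lat.str, h1]

lemma sum_force_le {V : Type} [Fintype V] [DecidableEq V] {h : ℝ} (lab : Lab V h) (B : Finset V)
    {z : ℝ} (hz0 : 0 ≤ z) (hz : z ≤ ∏ x ∈ B, (lab.site x).z) {F : (V → Bool) → ℝ}
    (hF : ∀ l, 0 ≤ F l) : z * ∑ l, lab.P l * F (Lab.force B l) ≤ ∑ l, lab.P l * F l := by
  have e : ∀ F : (V → Bool) → ℝ, (∀ l, 0 ≤ F l) → ENNReal.ofReal (∑ l, lab.P l * F l) =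
      ∑ l, ENNReal.ofReal (lab.P l) * ENNReal.ofReal (F l) := fun F hF => by
    rw [ENNReal.ofReal_sum_of_nonneg fun l _ => mul_nonneg (lab.P_nonneg l) (hF l)]
    exact sum_congr rfl fun l _ => ENNReal.ofReal_mul (lab.P_nonneg l)
  rw [← ENNReal.ofReal_le_ofReal_iff (sum_nonneg fun l _ => mul_nonneg (lab.P_nonneg l) (hF l)),
    ENNReal.ofReal_mul hz0, e F hF, e _ fun l => hF _]
  refine (mul_le_mul_left (ENNReal.ofReal_le_ofReal hz) _).trans
    ((lab.sum_force B fun l => ENNReal.ofReal (F l)).ge.trans (sum_le_sum fun l _ => ?_))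
  split_ifs <;> simp

end X2

open X2 in
/-- `Ip_eq_lint`, `cc_KT`.  Source outside `R = ball y ρ`: `Env.lc` with the weight
`|Im w x| * W` and `hb_act`, or `W` and `hb_pas` (`η * 100 Λ ≤ 100`); `4 g str |Gr y x|² =
cc (KT w) (y,true) q` a.e. by `hy`.  Source in `R`: `cc ≤ 4` and `∫ W dμ ≤ e^{kn} ∫ W∘fz dμ =
e^{kn} ∫ W∘fz dμ' ≤ e^{2kn} ∫ W dμ'` (`Temp.le_of_eq_off` needs a site `b ∉ R`: repeat its
induction for a weight that is tempered at every site). -/
theorem x2 {L : G.Lat} {E' : T.Env L.X} (hA : Adj L E'.G) {E : ℝ} (μ μ' : L.X → Measure ℂ)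
    [∀ x, IsProbabilityMeasure (μ x)] [∀ x, IsProbabilityMeasure (μ' x)]
    (hμ' : ∀ x, E'.μ x = (μ' x).map (toT E E'.η)) {W : L.Mat → ℝ} {k : ℝ}
    (hW : Temp E E'.η W k) (k0 : 0 ≤ k) (k1 : k ≤ 1) {y o : L.X} {ρ : ℕ} {Λ n lam g : ℝ}
    (hρ : 1 ≤ ρ) (hμ : ∀ x ∉ T.ball E'.G y ρ, μ x = μ' x)
    (ho : T.ball E'.G o 2 ⊆ T.ball E'.G y ρ) (hne : (T.nbr E'.G o).Nonempty)
    (hu : ∀ x ∈ (T.ball E'.G y ρ).erase o, T.U2 ((μ x).map (toT E E'.η)) (E'.r x) Λ)
    (hγ : ∀ᵐ t ∂μ o, ga E'.η t ≤ Λ) (hΛ : ∀ v ∈ T.ball E'.G y ρ, E'.Λ v ≤ Λ)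
    (hn : ((T.ball E'.G y ρ).card : ℝ) ≤ n) (hg : E'.Grow y lam) (hg0 : 0 < g) (hg1 : g ≤ 1)
    (hy : ∀ᵐ t ∂μ' y, ga E'.η t = g) (hη : ∀ x, E'.η * E'.Λ x ≤ 1) (q : L.P) {D : ℕ}
    (hD : q.1 ∉ T.ball E'.G y ρ → q.1 ∉ T.ball E'.G y (ρ + 3 * D))
    (hD0 : q.1 ∈ T.ball E'.G y ρ → D = 0) :
    Ip L E E'.η μ (fun K => W K * cc K (o, true) q) ≤ loss Λ n k lam ρ / g *
      (Ip L E E'.η μ' (fun K => W K * cc K (y, true) q) +
        Real.exp (-(lam * D ^ 2)) * Ip L E E'.η μ' W) := by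
  obtain ⟨x, β⟩ := q
  have hη0 := E'.η0
  have hyR := T.self_mem_ball (G := E'.G) y ρ
  have hΛ0 : 100 ≤ Λ := (E'.law y).big.trans (hΛ y hyR)
  have hn1 : 1 ≤ n := le_trans (by exact_mod_cast card_pos.2 ⟨y, hyR⟩) hn
  have hlog : 0 ≤ Real.log Λ := Real.log_nonneg (by linarith)
  have hlam : 0 ≤ lam := by
    have := hg 0 y (T.self_mem_ball y 0)
    have := Real.log_nonneg (show 1 ≤ E'.Λ y by linarith [(E'.law y).big])
    simp only [Nat.cast_zero, zero_add, mul_one] at *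
    linarith
  have hN : ∀ v, Nice fun K : L.Mat => W K * cc K (v, true) (x, β) := fun v =>
    hW.1.mul (nice_cc _ _)
  have hF : ∀ v (K : L.Mat), IsPort K → 0 ≤ W K * cc K (v, true) (x, β) := fun v K hK =>
    mul_nonneg (hW.2.1 K hK) (cc_nonneg _ _ _)
  have hIy := Ip_nonneg (E := E) hη0 μ' (hF y)
  have hIW := Ip_nonneg (E := E) hη0 μ' hW.2.1
  have eμ : (fun x => (μ' x).map (toT E E'.η)) = E'.μ := funext fun x => (hμ' x).symm
  have eo := Ip_eq_lint (E := E) hη0 μ (hN o) (hF o)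
  have ey := Ip_eq_lint (E := E) hη0 μ' (hN y) (hF y)
  have eW := Ip_eq_lint (E := E) hη0 μ' hW.1 hW.2.1
  rw [eμ] at ey eW
  have hν : ∀ v ∉ T.ball E'.G y ρ, (μ v).map (toT E E'.η) = E'.μ v := fun v hv => by
    rw [hμ v hv, hμ']
  have hT := temp_KT hW k0 k1 x
  have hl1 : ∀ {a : ℕ} {c e : ℝ}, a ≤ 24 → c ≤ 400 → 0 ≤ c →
      e ≤ 2 * k * n + 36 * n * Real.log Λ + 3000 * lam * (ρ + 4004) ^ 2 →
      c * (Λ ^ a * n ^ 3 * Real.exp e) ≤ loss Λ n k lam ρ := fun {a c e} ha hc hc0 he => by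
    have h1 : c * Λ ^ a ≤ Λ ^ 30 := by
      calc c * Λ ^ a ≤ Λ ^ 6 * Λ ^ 24 :=
            mul_le_mul (hc.trans (le_trans (by norm_num) (pow_le_pow_left₀ (by norm_num) hΛ0 6)))
              (pow_le_pow_right₀ (by linarith) ha) (by positivity) (by positivity)
        _ = _ := by ring
    rw [loss, ← mul_assoc, ← mul_assoc]
    gcongr
  have hl0 : 0 ≤ loss Λ n k lam ρ := by unfold loss; positivity
  have hlg : loss Λ n k lam ρ ≤ loss Λ n k lam ρ / g := le_div_self hl0 hg0 hg1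
  by_cases hx : x ∈ T.ball E'.G y ρ
  · obtain rfl := hD0 hx
    have h1 : ENNReal.ofReal (Ip L E E'.η μ fun K => W K * cc K (o, true) (x, β)) ≤
        ENNReal.ofReal 0 * ENNReal.ofReal 0 +
          ENNReal.ofReal (4 * Real.exp (2 * k * (T.ball E'.G y ρ).card)) *
            ENNReal.ofReal (Ip L E E'.η μ' W) := by
      rw [eo, eW, ENNReal.ofReal_mul (by norm_num), mul_assoc, ENNReal.ofReal_zero, mul_zero, zero_add]
      refine le_trans ?_ (mul_le_mul_right (lint_le hT.1 (KT_step hW) _ _ _ hν) _)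
      rw [← lintegral_const_mul' _ _ ENNReal.ofReal_ne_top]
      refine lintegral_mono fun w => ?_
      have hK := port_KT (L := L) (E := E) hη0 w
      rw [← ENNReal.ofReal_mul (by norm_num), mul_comm]
      exact ENNReal.ofReal_le_ofReal (mul_le_mul_of_nonneg_right
        ((cc_le_dd _ _ _).trans (hK.dd_le _)) (hW.2.1 _ hK))
    have h2 := real_of le_rfl hIW le_rfl (by positivity) h1
    have h3 := hl1 (a := 0) (c := 4) (e := 2 * k * (T.ball E'.G y ρ).card) (by norm_num)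
      (by norm_num) (by norm_num) (by
        have : 0 ≤ 36 * n * Real.log Λ := by positivity
        have : 0 ≤ 3000 * lam * ((ρ : ℝ) + 4004) ^ 2 := by positivity
        nlinarith)
    have h4 : 4 * Real.exp (2 * k * (T.ball E'.G y ρ).card) ≤ loss Λ n k lam ρ / g := by
      refine le_trans ?_ (h3.trans hlg)
      have := one_le_pow₀ (n := 3) hn1
      have := Real.exp_pos (2 * k * (T.ball E'.G y ρ).card)
      nlinarith
    have h5 := mul_le_mul_of_nonneg_right h4 hIW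
    have h6 := mul_nonneg (hl0.trans hlg) hIy
    simp only [Nat.cast_zero, ne_eq, OfNat.ofNat_ne_zero, not_false_eq_true, zero_pow, mul_zero,
      neg_zero, Real.exp_zero, one_mul] at *
    linarith
  obtain ⟨W', c, Bb, hc, hT', hB, hcB, hw⟩ : ∃ (W' : (L.X → ℂ) → ℝ≥0∞) (c Bb : ℝ≥0∞), c ≠ ⊤ ∧
      T.Temp W' x k ∧ E'.HB W' x k (T.ball E'.G y ρ) Bb ∧
      c * Bb ≤ ENNReal.ofReal 400 * ENNReal.ofReal (Ip L E E'.η μ' W) ∧
      ∀ w v, ENNReal.ofReal (W (KT L E E'.η w) * cc (KT L E E'.η w) (v, true) (x, β)) =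
        c * (ENNReal.ofReal |(w v).im| * W' w * ENNReal.ofReal (‖T.Gr E'.G E'.η w v x‖ ^ 2)) := by
    have hWp : ∀ w, 0 ≤ W (KT L E E'.η w) := fun w => hW.2.1 _ (port_KT hη0 w)
    rw [eW]
    cases β
    · refine ⟨_, ENNReal.ofReal (4 * E'.η), _, ENNReal.ofReal_ne_top, hT,
        E'.hb_pas hT (fun w z => KT_step hW w x z) _, ?_, fun w v => ?_⟩
      · rw [← mul_assoc, ← ENNReal.ofReal_mul (by positivity)]
        exact mul_le_mul_left (ENNReal.ofReal_le_ofReal (by nlinarith [hη x])) _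
      · rw [cc_KT hA hη0, ← ENNReal.ofReal_mul (abs_nonneg _),
          ← ENNReal.ofReal_mul (mul_nonneg (abs_nonneg _) (hWp w)),
          ← ENNReal.ofReal_mul (by positivity)]
        congr 1; simp only [Bool.false_eq_true, if_false]; ring
    · refine ⟨_, ENNReal.ofReal 4, _, ENNReal.ofReal_ne_top, (E'.hb_act hT ∅).1,
        (E'.hb_act hT _).2, mul_le_mul_left (ENNReal.ofReal_le_ofReal (by norm_num)) _,
        fun w v => ?_⟩
      rw [cc_KT hA hη0, ← ENNReal.ofReal_mul (abs_nonneg _), ← ENNReal.ofReal_mul (abs_nonneg _),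
        ← ENNReal.ofReal_mul (mul_nonneg (abs_nonneg _) (mul_nonneg (abs_nonneg _) (hWp w))),
        ← ENNReal.ofReal_mul (by positivity)]
      congr 1; simp only [if_true]; ring
  have hab : ∀ (m : Measure ℂ) {P : ℝ → Prop}, MeasurableSet {s | P s} →
      (∀ᵐ t ∂m, P (ga E'.η t)) → ∀ᵐ z ∂m.map (toT E E'.η), P |z.im| := fun m P hP h =>
    (ae_map_iff measurable_toT.aemeasurable ((measurable_im.abs) hP)).2 (by
      exact h.mono fun t ht => by rwa [← abs_toT_im (E := E)] at ht)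
  have h1 := E'.lc (fun x => (μ x).map (toT E E'.η)) hT' hρ (hD hx) hν ho hne hu
    (hab _ measurableSet_Iic hγ) hΛ hn hg hB
  have e1 : ENNReal.ofReal (Ip L E E'.η μ fun K => W K * cc K (o, true) (x, β)) =
      c * T.Rq E'.G E'.η (fun x => (μ x).map (toT E E'.η))
        (fun w => ENNReal.ofReal |(w o).im| * W' w) o x := by
    rw [eo, T.Rq, ← lintegral_const_mul' _ _ hc]; simp only [hw]
  have e2 : c * T.Rq E'.G E'.η E'.μ W' y x = ENNReal.ofReal g⁻¹ *
      ENNReal.ofReal (Ip L E E'.η μ' fun K => W K * cc K (y, true) (x, β)) := by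
    rw [ey, T.Rq, ← lintegral_const_mul' _ _ hc, ← lintegral_const_mul' _ _ ENNReal.ofReal_ne_top]
    have h2 : ∀ᵐ z ∂E'.μ y, |z.im| = g := by
      rw [hμ']; exact hab _ (measurableSet_singleton g) hy
    refine lintegral_congr_ae ((Measure.tendsto_eval_ae_ae.eventually h2).mono fun w h => ?_)
    have h3 : ENNReal.ofReal g⁻¹ * ENNReal.ofReal g = 1 := by
      rw [← ENNReal.ofReal_mul (by positivity), inv_mul_cancel₀ hg0.ne', ENNReal.ofReal_one]
    simp only [hw, show |(w y).im| = g from h]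
    calc _ = ENNReal.ofReal g⁻¹ * ENNReal.ofReal g *
          (c * (W' w * ENNReal.ofReal (‖T.Gr E'.G E'.η w y x‖ ^ 2))) := by rw [h3, one_mul]
      _ = _ := by ring
  have h2 := mul_le_mul_right h1 c
  rw [← e1, mul_add, mul_left_comm, e2, mul_left_comm c, ← mul_assoc,
    ← ENNReal.ofReal_mul (by positivity)] at h2
  have h3 := h2.trans (add_le_add_right (mul_le_mul_right hcB _) _)
  rw [← mul_assoc, ← ENNReal.ofReal_mul (q := 400) (by positivity)] at h3
  refine (real_of hIy hIW (by positivity) (by positivity) h3).trans ?_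
  rw [mul_add (loss Λ n k lam ρ / g), ← mul_assoc (loss Λ n k lam ρ / g)]
  have h4 := hl1 (a := 24) (c := 1) le_rfl (by norm_num) (by norm_num) le_rfl
  have h5 := hl1 (a := 20) (c := 400) (e := 2 * k * n + 30 * lam * (ρ + 4004)) (by norm_num) le_rfl
    (by norm_num) (by
      have : 0 ≤ 36 * n * Real.log Λ := by positivity
      have : 0 ≤ lam * (((ρ : ℝ) + 4004) * (3000 * (ρ + 4004) - 30)) :=
        mul_nonneg hlam (mul_nonneg (by positivity) (by linarith [Nat.cast_nonneg (α := ℝ) ρ]))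
      linarith)
  refine add_le_add (mul_le_mul_of_nonneg_right ?_ hIy) (mul_le_mul_of_nonneg_right ?_ hIW)
  · rw [div_eq_mul_inv]
    exact mul_le_mul_of_nonneg_right (by linarith) (by positivity)
  · rw [sub_eq_add_neg, Real.exp_add]
    linarith [mul_le_mul_of_nonneg_right (h5.trans hlg) (Real.exp_pos (-(lam * D ^ 2))).le]

open X2 in
/-- `Iw_eq`.  If `o` is not active under `lb`, or `μ o {0 < ga} = 0`, then `cc K (o,true) q = 0` a.e.
Else condition `μ o` on `{0 < ga}` (`ProbabilityTheory.cond`; integrate over the site `o` first):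
factor `p`, then `x2` with `update (law lb) o cond` and `μ' = law (force (req y) lb)` (`y` is active
there).  Sum over `lb` with `sum_force`. -/
theorem lcat {L : G.Lat} {h : ℝ} (hh : 0 < h) (lab : Lab L.X h) {G : SimpleGraph L.X} (hA : Adj L G)
    {E η : ℝ} (hη0 : 0 < η) (μ : L.X → Measure ℂ) [∀ x, IsProbabilityMeasure (μ x)]
    {W : L.Mat → ℝ} {k : ℝ} (hW : Temp E η W k) (k0 : 0 ≤ k) (k1 : k ≤ 1) {y o : L.X} {ρ : ℕ}
    {Λ n lam g p z : ℝ} (hρ : 1 ≤ ρ) (hΛ1 : 1 ≤ Λ) (ho : T.ball G o 2 ⊆ T.ball G y ρ)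
    (hne : (T.nbr G o).Nonempty) (hn : ((T.ball G y ρ).card : ℝ) ≤ n) (hp0 : 0 ≤ p)
    (hp : μ o {t | 0 < ga η t} ≤ ENNReal.ofReal p) (hγ : ∀ᵐ t ∂μ o, ga η t ≤ Λ) (hg0 : 0 < g)
    (hg1 : g ≤ 1) (hy : ∀ᵐ t ∂μ y, ga η t = g) (hcan : lab.can y) (hz0 : 0 < z)
    (hz : z ≤ ∏ x ∈ lab.req y, (lab.site x).z)
    (hloc : ∀ lb, ∀ x ∉ T.ball G y ρ,
      lab.law η μ (Lab.force (lab.req y) lb) x = lab.law η μ lb x)
    {D : L.X → ℕ} (hD : ∀ x ∉ T.ball G y ρ, x ∉ T.ball G y (ρ + 3 * D x))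
    (hD0 : ∀ x ∈ T.ball G y ρ, D x = 0)
    (henv : ∀ lb, ∃ E' : T.Env L.X, E'.G = G ∧ E'.η = η ∧
      (∀ x, E'.μ x = (lab.law η μ (Lab.force (lab.req y) lb) x).map (toT E η)) ∧
      (∀ x ∈ T.ball G y ρ, T.U2 ((lab.law η μ lb x).map (toT E η)) (E'.r x) Λ ∧ E'.Λ x ≤ Λ) ∧
      E'.Grow y lam ∧ ∀ x, η * E'.Λ x ≤ 1) :
    LCat lab E η μ W o y (p * (loss Λ n k lam ρ / (g * z))) fun x => Real.exp (-(lam * D x ^ 2)) := by
  intro q
  have hP := lab.isProb_law hh η μ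
  have hN : ∀ v, Nice fun K : L.Mat => W K * cc K (v, true) q := fun v => hW.1.mul (nice_cc _ _)
  have hF : ∀ v (K : L.Mat), IsPort K → 0 ≤ W K * cc K (v, true) q := fun v K hK =>
    mul_nonneg (hW.2.1 K hK) (cc_nonneg _ _ _)
  have hoR := ho (T.self_mem_ball o 2)
  have hl0 : 0 ≤ loss Λ n k lam ρ := by
    have : 0 ≤ n := (Nat.cast_nonneg _).trans hn
    unfold loss; positivity
  set F : (L.X → Bool) → ℝ := fun lb =>
    Ip L E η (lab.law η μ lb) (fun K => W K * cc K (y, true) q) +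
      Real.exp (-(lam * D q.1 ^ 2)) * Ip L E η (lab.law η μ lb) W with hFdef
  have key : ∀ lb, Ip L E η (lab.law η μ lb) (fun K => W K * cc K (o, true) q) ≤
      p * (loss Λ n k lam ρ / g * F (Lab.force (lab.req y) lb)) := fun lb => by
    have h1 : lab.law η μ lb o {t | 0 < ga η t} ≤ ENNReal.ofReal p ∧
        ∀ᵐ t ∂lab.law η μ lb o, ga η t ≤ Λ := by
      by_cases ha : lab.act lb o
      · rw [lab.law_of_act η μ ha]; exact ⟨hp, hγ⟩
      · rw [lab.law_of_not_act η μ ha]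
        have h0 := (ae_lift_im η (dens ((lab.site o).den (lb o)))).mono
          (q := fun t => ga η t = 0) fun t ht => by simp [ga, ht]
        refine ⟨le_trans (le_of_eq ?_) bot_le, h0.mono fun t ht => by linarith⟩
        exact measure_mono_null (fun t (ht : 0 < ga η t) => ht.ne') h0
    obtain ⟨ν, hν1, hν2, hν3⟩ := exists_cond _ _ h1.1
    refine (Ip_cond hη0 _ hW.1 hW.2.1 o q hp0 hν3).trans (mul_le_mul_of_nonneg_left ?_ hp0)
    obtain ⟨E', rfl, rfl, e1, e2, e3, e4⟩ := henv lb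
    refine x2 hA _ _ e1 hW k0 k1 hρ (fun x hx => ?_) ho hne (fun x hx => ?_) ?_
      (fun v hv => (e2 v hv).2) hn e3 hg0 hg1 ?_ e4 q (hD _) (hD0 _)
    · rw [update_of_ne (fun h : x = o => hx (h ▸ hoR)), hloc lb x hx]
    · rw [update_of_ne (ne_of_mem_erase hx)]; exact (e2 x (mem_of_mem_erase hx)).1
    · rw [update_self]; exact hν2.ae_le h1.2
    · rw [lab.law_of_act _ _ ⟨hcan, fun x hx => Lab.force_of_mem lb hx⟩]; exact hy
  have h2 := sum_force_le lab (lab.req y) hz0.le hz (F := F) fun lb =>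
    add_nonneg (Ip_nonneg hη0 _ (hF y)) (mul_nonneg (Real.exp_pos _).le (Ip_nonneg hη0 _ hW.2.1))
  have e : ∑ l, lab.P l * F l = Iw lab E η μ (fun K => W K * cc K (y, true) q) +
      Real.exp (-(lam * D q.1 ^ 2)) * Iw lab E η μ W := by
    rw [Iw_eq hh hη0 lab μ (hN y), Iw_eq hh hη0 lab μ hW.1, mul_sum, ← sum_add_distrib]
    exact sum_congr rfl fun l _ => by simp only [hFdef]; ring
  rw [Iw_eq hh hη0 lab μ (hN o), ← e]
  refine (sum_le_sum fun l _ => mul_le_mul_of_nonneg_left (key l) (lab.P_nonneg l)).trans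
    (le_trans (le_of_eq ?_) (mul_le_mul_of_nonneg_left h2 (by positivity)))
  rw [mul_sum, mul_sum]
  exact sum_congr rfl fun l _ => by field_simp

end Crest.Agent.N334.Br
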