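import Crest.Agent.N334.Br.X1
import Crest.Agent.N334.Br.X2
import Crest.Agent.N334.Md.Sys
import Crest.Agent.N334.Main.Defs

/-!
# Row 334 (helper86): the concrete model; `BPat` and `LCat` with explicit constants
-/

set_option autoImplicit false

open MeasureTheory Finset Function
open scoped ENNReal

noncomputable section

namespace Crest.Agent.N334.Br

open G I Sw Md

section mono

variable {L : G.Lat} {h E η : ℝ} {lab : Lab L.X h} {μ : L.X → Measure ℂ} {W : L.Mat → ℝ}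

theorem Iw_nonneg (hη : 0 < η) {F : L.Mat → ℝ} (h0 : ∀ K, IsPort K → 0 ≤ F K) :
    0 ≤ Iw lab E η μ F := integral_nonneg fun _ => h0 _ (port_Kw L E hη _)

theorem bpat_mono (hη : 0 < η) (hW : ∀ K, IsPort K → 0 ≤ W K) {y : L.X} {a₀ b γ ε α ε' α' : ℝ}
    {k k' : L.X → ℝ} (H : BPat lab E η μ W y a₀ b γ ε α k) (hε : ε ≤ ε')
    (hα : ∀ x, α * k x ≤ α' * k' x) : BPat lab E η μ W y a₀ b γ ε' α' k' := fun q =>
  (H q).trans (add_le_add
    (mul_le_mul_of_nonneg_right hε (Iw_nonneg hη fun K hK => mul_nonneg (hW K hK) (cc_nonneg _ _ _)))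
    (mul_le_mul_of_nonneg_right (hα _) (Iw_nonneg hη hW)))

theorem lcat_mono (hη : 0 < η) (hW : ∀ K, IsPort K → 0 ≤ W K) {o y : L.X} {π π' : ℝ}
    {k k' : L.X → ℝ} (H : LCat lab E η μ W o y π k) (hπ : π ≤ π')
    (hk : ∀ x, π * k x ≤ π' * k' x) : LCat lab E η μ W o y π' k' := fun q => by
  have h1 := mul_le_mul_of_nonneg_right hπ (Iw_nonneg (lab := lab) (E := E) (μ := μ) hη
    (F := fun K => W K * cc K (y, true) q) fun K hK => mul_nonneg (hW K hK) (cc_nonneg _ _ _))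
  have h2 := mul_le_mul_of_nonneg_right (hk q.1) (Iw_nonneg (lab := lab) (E := E) (μ := μ) hη hW)
  have h3 := H q
  nlinarith

end mono

/-- all the data of the model -/
structure Dat where
  N : ℕ
  hN : 1 ≤ N
  a : ℕ
  b : ℕ
  p₁ : Par
  p₂ : Par
  dvd₁ : a ∣ b
  dvd₂ : 4 * b ∣ 2 ^ N
  le₁ : p₁.R + 1 + 8 ≤ a
  le₂ : p₂.R + 1 + 8 ≤ b
  h : ℝ
  En : ℝ
  D : ℝ
  A : ℝ
  k : ℝ
  η : ℝ
  η0 : 0 < η
  η1 : η ≤ 1
  L₁ : Led p₁ h En D A k
  L₂ : Led p₂ h En D A k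
  hMo : p₁.Mo = p₂.Mo
  hb : p₁.b = p₂.b
  hD : h⁻¹ + p₁.b⁻¹ ≤ D
  hA : (1 + (2 * h + 1) ^ 2) * (2 * D) + (|En| + 2 * h + 100) ≤ Real.exp A

theorem gam_le (p : Par) : p.δ ^ 2 / 2 ≤ p.b := by
  have h1 := p.δ_le_inv
  have h2 := p.inv_P_le
  have h3 := p.δ_pos
  have h4 := p.bP
  nlinarith

namespace Dat

variable (d : Dat)

theorem cen_eq : d.p₁.cen d.En 0 = d.p₂.cen d.En 0 := by simp only [Par.cen, d.hMo]

/-- the model of `Main/Defs` -/
def su : Mn.Su where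
  h := d.h
  hh := d.L₁.h_pos
  E := d.En
  η := d.η
  η0 := d.η0
  η1 := d.η1
  N := d.N
  hN := d.hN
  a := d.a
  b := d.b
  r₁ := d.p₁.R + 1
  r₂ := d.p₂.R + 1
  dvd₁ := d.dvd₁
  dvd₂ := d.dvd₂
  le₁ := d.le₁
  le₂ := d.le₂
  B₁ := d.L₁.site
  B₂ := d.L₂.site
  a0 := d.p₂.cen d.En 0
  b0 := d.p₂.b
  b0_pos := d.p₂.b_pos
  b0_le := d.p₂.b1
  wd₁ := by rw [d.L₁.site_zero, d.cen_eq, d.hb]
  wd₂ := d.L₂.site_zero
  supp := d.L₂.port
  γ₁ := d.p₁.δ ^ 2 / 2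
  γ₂ := d.p₂.δ ^ 2 / 2
  γ₁_pos := by have := d.p₁.δ_pos; positivity
  γ₁_le := d.hb ▸ gam_le d.p₁
  γ₂_pos := by have := d.p₂.δ_pos; positivity
  γ₂_le := gam_le d.p₂

/-- the system of `Md/Sys` -/
def sys : Sys where
  g := d.su.g
  p₁ := d.p₁
  p₂ := d.p₂
  h := d.h
  En := d.En
  D := d.D
  A := d.A
  k := d.k
  hr₁ := rfl
  hr₂ := rfl
  L₁ := d.L₁
  L₂ := d.L₂
  hD := (le_add_of_nonneg_right (inv_pos.2 d.p₁.b_pos).le).trans d.hD
  hA := d.hA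

/-- the graph -/
abbrev gr : SimpleGraph d.su.L.X := tgraph d.sys.g.M

theorem adj : Adj d.su.L d.gr := fun x y => by
  have h := tadj_eq_ite d.sys.g.three_le_M x y
  refine h.trans ?_
  simp only [T.mem_nbr]

theorem ball_gr (x : d.su.L.X) (n : ℕ) : T.ball d.gr x n = ball (M := d.sys.g.M) x n :=
  ball_tor (M := d.sys.g.M) x n

theorem mem_gr {x y : d.su.L.X} {n : ℕ} : y ∈ T.ball d.gr x n ↔ d1 (M := d.sys.g.M) y x ≤ n := by
  rw [ball_gr]; exact mem_ball (M := d.sys.g.M)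

theorem pa_b (y : d.su.L.X) : (d.sys.pa y).b = d.su.b0 ∧ (d.sys.pa y).cen d.En 0 = d.su.a0 ∧
    (d.sys.pa y).R + 9 ≤ d.b := by
  have h1 := d.sys.g.a_le_b
  have h2 := d.le₁
  have h3 := d.le₂
  unfold Sys.pa; split_ifs
  exacts [⟨d.hb, d.cen_eq, le_trans h2 h1⟩, ⟨rfl, rfl, h3⟩]

variable {d}

theorem reg {ν : Measure ℂ} (hν : d.su.Adm ν) : Reg d.En d.h d.D (ν.map (toT d.En d.η)) := by
  have := hν.prob
  refine ⟨inferInstance, ?_, fun a l => ?_⟩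
  · refine (ae_map_iff measurable_toT.aemeasurable (measurableSet_supp _ _)).2 ?_
    filter_upwards [hν.supp] with t ht
    rw [abs_toT_im, toT_re, sub_add_cancel]
    exact ht
  · rw [Measure.map_apply measurable_toT (measurableSet_le (by fun_prop) measurable_const)]
    have e : toT d.En d.η ⁻¹' {z | |z.re - a| ≤ l} =
        Complex.re ⁻¹' Set.Icc (a + d.En - l) (a + d.En + l) := by
      ext x; simp only [Set.mem_preimage, Set.mem_ofPred_eq, toT_re, Set.mem_Icc, abs_le]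
      constructor <;> rintro ⟨h1, h2⟩ <;> constructor <;> linarith
    rw [e, ← Measure.map_apply Complex.measurable_re measurableSet_Icc]
    refine (hν.dens _).trans ?_
    have h0 : 0 ≤ d.su.h⁻¹ + d.su.b0⁻¹ :=
      add_nonneg (inv_pos.2 d.su.hh).le (inv_pos.2 d.su.b0_pos).le
    have h1 : d.su.h⁻¹ + d.su.b0⁻¹ ≤ d.D := by have := d.hD; rwa [d.hb] at this
    rw [Measure.smul_apply, Real.volume_Icc, smul_eq_mul, ← ENNReal.ofReal_mul h0]
    rcases le_total l 0 with hl | hl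
    · rw [ENNReal.ofReal_of_nonpos (by nlinarith)]; exact zero_le
    · exact ENNReal.ofReal_le_ofReal (by nlinarith)

theorem law_map (μ : d.su.L.X → Measure ℂ) (l : d.su.L.X → Bool) (x : d.su.L.X) :
    d.sys.law (fun x => (μ x).map (toT d.En d.η)) l x =
      (d.su.lab.law d.η μ l x).map (toT d.En d.η) := by
  by_cases h : d.su.lab.act l x
  · rw [Lab.law_of_act _ _ _ h]; exact if_pos h
  · rw [Lab.law_of_not_act _ _ _ h, map_lift_zero]; exact if_neg h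

theorem fam {μ : d.su.L.X → Measure ℂ} (hμ : ∀ x, d.su.Adm (μ x)) (l : d.su.L.X → Bool) :
    d.sys.Fam l (d.sys.law (fun x => (μ x).map (toT d.En d.η)) l) :=
  Sys.fam_law fun x _ => reg (hμ x)

theorem kx_ge (x y : d.su.L.X) {c : ℝ} (hc : (d1 (M := d.sys.g.M) x y : ℝ) ≤ c * d.b) :
    Real.exp (-c) ≤ kx d.su.L d.su.D x y := by
  have hb : (8 : ℝ) ≤ d.b := by exact_mod_cast d.sys.g.eight_le_b
  have h1 : d.su.L.rx x y ≤ (7 * (d1 (M := d.sys.g.M) x y : ℝ)) ^ 2 := by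
    have h2 := dsq_le (M := d.sys.g.M) x y
    have h3 : d.su.L.rx x y ≤ 40 * dsq (M := d.sys.g.M) x y := by
      unfold G.Lat.rx dsq
      rw [mul_sum, mul_sum]
      exact sum_le_sum fun i _ => (chord_two_sided d.N i x y).2
    nlinarith [sq_nonneg (d1 (M := d.sys.g.M) x y : ℝ)]
  have h4 := Real.sqrt_le_sqrt h1
  rw [Real.sqrt_sq (by positivity)] at h4
  refine Real.exp_le_exp.2 (neg_le_neg ?_)
  rw [div_le_iff₀ (show 0 < d.su.D by unfold Mn.Su.D; change (0 : ℝ) < 42 * d.b; linarith)]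
  change _ ≤ c * (42 * (d.b : ℝ))
  have : (0 : ℝ) ≤ d1 (M := d.sys.g.M) x y := Nat.cast_nonneg _
  linarith

/-- the Gaussian kernel is below the exponential one -/
theorem ker_le (x y : d.su.L.X) {D : ℕ} {c lam : ℝ} (hl : 1 ≤ lam)
    (hc : (d1 (M := d.sys.g.M) x y : ℝ) ≤ 3 * D + c * d.b) :
    Real.exp (-(lam * D ^ 2)) ≤ Real.exp c * kx d.su.L d.su.D x y := by
  have hb : (8 : ℝ) ≤ d.b := by exact_mod_cast d.sys.g.eight_le_b
  have hD : (D : ℝ) ≤ D ^ 2 := by exact_mod_cast Nat.le_self_pow two_ne_zero D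
  have hD0 : (0 : ℝ) ≤ D := Nat.cast_nonneg _
  have h := kx_ge x y (c := D + c) (by nlinarith)
  refine le_trans ?_ (mul_le_mul_of_nonneg_left h (Real.exp_pos c).le)
  rw [← Real.exp_add]
  exact Real.exp_le_exp.2 (by nlinarith)

theorem hΛη (hη : d.η * Real.exp (d.A + 2 * d.k * d.b) ≤ 1) (x : d.su.L.X) :
    d.η * d.sys.Λ x ≤ 1 := by
  refine le_trans (mul_le_mul_of_nonneg_left (Real.exp_le_exp.2 ?_) d.η0.le) hη
  have h1 : d.sys.dep x ≤ d.b := by have := (d.pa_b x).2.2; unfold Sys.dep; omega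
  have h2 : (d.sys.dep x : ℝ) ≤ d.b := by exact_mod_cast h1
  have := d.L₁.k_nonneg
  change d.A + 2 * d.k * _ ≤ _
  gcongr

theorem bp_ctr {μ : d.su.L.X → Measure ℂ} (hμ : ∀ x, d.su.Adm (μ x)) {W : d.su.L.Mat → ℝ}
    {κ Q lam ε γ : ℝ} (hW : Temp d.En d.η W κ) (k0 : 0 ≤ κ) (hκ : κ * (d.b : ℝ) ^ 2 ≤ 1)
    {y : d.su.L.X} (hy : d.sys.ce y = y) {p : Par} (hp : d.sys.pa y = p) (hγ : 0 ≤ γ)
    (hγ1 : γ ≤ p.δ ^ 2 / 2) (hη : d.η * Real.exp (d.A + 2 * d.k * d.b) ≤ 1)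
    (hη' : d.η ≤ p.s * (p.δ ^ 2 / 16)) (hP : p.P ≤ Q) (hl1 : 1 ≤ lam)
    (hlam : d.A + 2 * d.k * (p.j + 1) ≤ lam)
    (hl : Real.exp (lam * ((p.j + 1 : ℕ) + 4004) ^ 2) ≤ Q) (hε : Q ^ 3111 * p.s ≤ ε) :
    BPat d.su.lab d.En d.η μ W y d.su.a0 d.su.b0 γ ε ε (kx d.su.L d.su.D y) := by
  subst hp
  set p := d.sys.pa y with hp
  have := fun x => (hμ x).prob
  obtain ⟨e1, e2, e3⟩ : p.b = d.su.b0 ∧ p.cen d.En 0 = d.su.a0 ∧ p.R + 9 ≤ d.b := d.pa_b y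
  have hb : (8 : ℝ) ≤ d.b := by exact_mod_cast d.sys.g.eight_le_b
  have hR : (p.R : ℝ) + 9 ≤ d.b := by exact_mod_cast e3
  have hs := p.s_pos
  have hδ := p.δ_pos
  have hP1 := p.big
  have hs1 : p.s ≤ 1 := p.s_le.trans (inv_le_one_of_one_le₀ (one_le_pow₀ (by linarith)))
  have hγ2 : γ ≤ 1 := (hγ1.trans (gam_le p)).trans p.b1
  have hη2 : d.η ≤ p.δ ^ 2 / 16 := hη'.trans (mul_le_of_le_one_left (by positivity) hs1)
  have he : Real.exp 4 ≤ Q := by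
    have : Real.exp 4 ≤ 3 ^ 4 := by
      rw [show (4 : ℝ) = (4 : ℕ) * 1 by norm_num, Real.exp_nat_mul]
      exact pow_le_pow_left₀ (Real.exp_pos _).le Real.exp_one_lt_three.le _
    linarith
  have hcard : ((ball (M := d.sys.g.M) y (p.R + 1)).card : ℝ) ≤ 4 * (d.b : ℝ) ^ 2 := by
    have h1 : ((ball (M := d.sys.g.M) y (p.R + 1)).card : ℝ) ≤ (2 * (p.R + 1 : ℝ) + 1) ^ 2 := by
      exact_mod_cast card_ball_le y (p.R + 1)
    have h0 : (0 : ℝ) ≤ p.R := Nat.cast_nonneg _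
    nlinarith
  have H := bpat d.su.hh d.su.lab d.adj d.η0 μ (B := ball (M := d.sys.g.M) y (p.R + 1))
    (Z := p.layer y) (y := y) (u := ut p.Mo p.R y) (win := fun x => p.win (d1 x y)) (a₀ := d.su.a0)
    (b := d.su.b0) (γ := γ) (P := p.P) (s := p.s) (lam := lam) (l := p.j + 1) (Q := Q)
    (D := fun x => (d1 (M := d.sys.g.M) x y - (p.R + 1) - 1) / 3) hW k0 (by nlinarith)
    d.su.b0_pos hγ hs.le (by linarith) hP
    ((Real.exp_le_exp.2 ((mul_le_mul_of_nonneg_left hcard k0).trans (by linarith))).trans he) hl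
    (fun x _ => hη'.trans (mul_le_mul_of_nonneg_left (p.le_win _) hs.le))
    (fun x hx z hz h => by
      have h := d.mem_gr.1 h
      have hx : ¬d1 (M := d.sys.g.M) x y ≤ p.R + 1 := fun e => hx (mem_ball.2 e)
      have h1 : d1 (M := d.sys.g.M) z y = p.R + 1 := p.mem_layer.1 hz
      have h2 := d1_triangle (M := d.sys.g.M) x z y
      omega)
    (fun x hx => by have := (mem_ball (M := d.sys.g.M)).1 hx; omega)
    (fun lb hlb => by
      have hl := (Sys.act_ctr hy).1 hlb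
      refine ⟨(fam hμ lb).home d.η0 d.η1 hy hγ hγ2, rfl, rfl,
        fun x hx => (update_of_ne hx ..).trans (law_map μ lb x), ?_, ?_, ?_, hΛη hη⟩
      · rw [← e2]; exact (congrArg Complex.re (update_self ..)).trans (sh_re _ _ _)
      · rw [← e1, ← e2]
        exact (fam hμ lb).block d.η0 d.η1 hy hγ hγ2 hl hη2 (by nlinarith) hlam
      · exact (Real.exp_le_exp.2 (((fam hμ lb).sum_κ d.η0 d.η1 hy hγ hγ2 hl).trans
          (by norm_num))).trans he)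
  have hQ : 1 ≤ Q := by linarith
  have hQ0 : 0 ≤ Q ^ 3110 * p.s := by positivity
  have hε' : Q * (Q ^ 3110 * p.s) ≤ ε := by rw [← mul_assoc, ← pow_succ']; exact hε
  refine bpat_mono d.η0 hW.2.1 H (le_trans (le_mul_of_one_le_left hQ0 hQ) hε') fun x => ?_
  have h1 := ker_le y x (D := (d1 (M := d.sys.g.M) x y - (p.R + 1) - 1) / 3) (c := 1) hl1 (by
    rw [d1_comm, one_mul]
    have : d1 (M := d.sys.g.M) x y ≤ 3 * ((d1 (M := d.sys.g.M) x y - (p.R + 1) - 1) / 3) + d.b := by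
      omega
    exact_mod_cast this)
  have h2 : Real.exp 1 ≤ Q := (Real.exp_le_exp.2 (by norm_num)).trans he
  have h3 : 0 ≤ kx d.su.L d.su.D y x := (Real.exp_pos _).le
  calc _ ≤ Q ^ 3110 * p.s * (Q * kx d.su.L d.su.D y x) := by
        gcongr; exact h1.trans (by gcongr)
    _ = Q * (Q ^ 3110 * p.s) * kx d.su.L d.su.D y x := by ring
    _ ≤ _ := by gcongr

theorem lc_ctr {μ : d.su.L.X → Measure ℂ} (hμ : ∀ x, d.su.Adm (μ x)) {W : d.su.L.Mat → ℝ}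
    {κ lam π ℓ : ℝ} (hW : Temp d.En d.η W κ) (k0 : 0 ≤ κ) (hκ : κ * (d.b : ℝ) ^ 2 ≤ 1)
    {y o : d.su.L.X} (hy : d.sys.ce y = y) {p : Par} (hp : d.sys.pa y = p) {ρ : ℕ}
    (hρ : d1 (M := d.sys.g.M) o y + 2 ≤ ρ) (hρ1 : p.R + 1 ≤ ρ) (hρ2 : ρ ≤ 7 * d.b)
    (hμy : μ y = d.su.port (p.δ ^ 2 / 2)) (hπ0 : 0 ≤ π)
    (hπ : μ o {t | ga d.η t ≠ 0} ≤ ENNReal.ofReal π)
    (hη : d.η * Real.exp (d.A + 2 * d.k * d.b) ≤ 1) (hl1 : 1 ≤ lam)
    (hlam : d.A + 2 * d.k * (p.R + 1) ≤ lam)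
    (hℓ : Real.exp 15 * (loss (10 * Real.exp (d.A + 2 * d.k * (ρ + p.R : ℕ)) ^ 3) ((2 * ρ + 1) ^ 2)
      κ lam ρ / (p.δ ^ 2 / 2 * (p.δ ^ 2 / (64 * d.h * p.l ^ 2)) ^ (2 * (p.R + 1) + 1) ^ 2)) ≤
        Real.exp ℓ) :
    LCat d.su.lab d.En d.η μ W o y (π * Real.exp ℓ) (kx d.su.L d.su.D o) := by
  subst hp
  set p := d.sys.pa y with hp
  have := fun x => (hμ x).prob
  have hb : (8 : ℝ) ≤ d.b := by exact_mod_cast d.sys.g.eight_le_b
  have hδ := p.δ_pos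
  have hh := d.L₁.h_pos
  have hl := p.l_pos
  set Λ := Real.exp (d.A + 2 * d.k * (ρ + p.R : ℕ)) with hΛ
  have hΛ1 : Real.exp d.A ≤ Λ := d.L₁.le_exp _
  have hΛ2 : 100 ≤ Λ := d.L₁.big.trans hΛ1
  have hΛ3 : Λ ≤ 10 * Λ ^ 3 := by nlinarith [le_self_pow₀ (show 1 ≤ Λ by linarith) three_ne_zero]
  have hreq : d.su.lab.req y = ball (M := d.sys.g.M) y (p.R + 1) ∧ d.su.lab.can y := by
    rcases Sys.ce_eq_iff.1 hy with h | h
    · rw [hp, Sys.pa_ctr₁ h]; exact ⟨Geo.req_ctr₁ _ _ _ h, Or.inr (Or.inl h)⟩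
    · rw [hp, Sys.pa_ctr₂ h]; exact ⟨Geo.req_ctr₂ _ _ _ h, Or.inr (Or.inr h)⟩
  have H := lcat d.su.hh d.su.lab d.adj d.η0 μ (y := y) (o := o) (ρ := ρ) (Λ := 10 * Λ ^ 3)
    (n := (2 * ρ + 1) ^ 2) (lam := lam) (g := p.δ ^ 2 / 2) (p := π)
    (z := (p.δ ^ 2 / (64 * d.h * p.l ^ 2)) ^ (2 * (p.R + 1) + 1) ^ 2)
    (D := fun x => (d1 (M := d.sys.g.M) x y - ρ - 1) / 3) hW k0 (by nlinarith) (by omega)
    (by linarith) (by rw [ball_gr, ball_gr]; exact ball_subset (M := d.sys.g.M) hρ)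
    ⟨(id o : Tor d.sys.g.M) + Pi.single 0 1,
      T.mem_nbr.2 ((tgraph_adj_iff d.sys.g.three_le_M).2 ⟨0, Or.inl rfl⟩)⟩
    (by rw [ball_gr]; exact_mod_cast card_ball_le (M := d.sys.g.M) y ρ) hπ0
    ((measure_mono fun t ht => ne_of_gt ht).trans hπ)
    (by
      filter_upwards [(hμ o).supp] with t ht
      have h1 := d.hA
      have h2 := d.L₁.D_nonneg
      have h3 : 0 ≤ (1 + (2 * d.h + 1) ^ 2) * (2 * d.D) := by positivity
      have h4 : ga d.η t ≤ d.h + 1 := ht.2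
      linarith [abs_nonneg d.En])
    (by positivity) ((gam_le p).trans p.b1)
    (by
      rw [hμy]
      refine (ae_map_iff (measurable_pt _).aemeasurable
        (measurableSet_eq_fun (by fun_prop) measurable_const)).2 (ae_of_all _ fun a => ?_)
      exact ga_pt _ a (by positivity))
    hreq.2 (by positivity) (by rw [hreq.1]; exact Sys.le_prod_z hy)
    (fun lb x hx => Geo.law_force (g := d.sys.g) d.su.hh d.L₁.site d.L₂.site d.η μ lb fun h => hx (by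
      rw [ball_gr]
      exact ball_mono (M := d.sys.g.M) y hρ1 (hreq.1 ▸ h)))
    (fun x hx h => by
      have h := d.mem_gr.1 h
      have hx : ¬d1 (M := d.sys.g.M) x y ≤ ρ := fun e => hx (d.mem_gr.2 e)
      omega)
    (fun x hx => by have := d.mem_gr.1 hx; omega)
    (fun lb => by
      refine ⟨(fam hμ _).env d.η0 d.η1, rfl, rfl, fun x => law_map μ _ x, fun x hx => ?_,
        Sys.grow (S := d.sys) rfl rfl y (by rw [Sys.dep_ctr hy]; exact hlam), hΛη hη⟩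
      rw [ball_gr] at hx
      have h1 : d.sys.Λ x ≤ Λ := by have := Sys.Λ_le hx; rwa [Sys.dep_ctr hy] at this
      exact ⟨law_map μ lb x ▸ (fam hμ lb).u2 (fam hμ _) x h1, h1.trans hΛ3⟩)
  set c := loss (10 * Λ ^ 3) ((2 * ρ + 1) ^ 2) κ lam ρ /
    (p.δ ^ 2 / 2 * (p.δ ^ 2 / (64 * d.h * p.l ^ 2)) ^ (2 * (p.R + 1) + 1) ^ 2) with hc
  have hc0 : 0 ≤ c := by rw [hc, loss]; positivity
  have h15 : 1 ≤ Real.exp 15 := Real.one_le_exp (by norm_num)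
  refine lcat_mono d.η0 hW.2.1 H (mul_le_mul_of_nonneg_left
    ((le_mul_of_one_le_left hc0 h15).trans hℓ) hπ0) fun x => ?_
  have h1 := ker_le o x (D := (d1 (M := d.sys.g.M) x y - ρ - 1) / 3) (c := 15) hl1 (by
    have t := d1_triangle (M := d.sys.g.M) o y x
    rw [d1_comm (M := d.sys.g.M) y x] at t
    have h8 := d.sys.g.eight_le_b
    have : d1 (M := d.sys.g.M) o x ≤ 3 * ((d1 (M := d.sys.g.M) x y - ρ - 1) / 3) + 15 * d.b := by
      change 8 ≤ d.b at h8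
      omega
    exact_mod_cast this)
  have h3 : 0 ≤ kx d.su.L d.su.D o x := (Real.exp_pos _).le
  calc _ ≤ π * c * (Real.exp 15 * kx d.su.L d.su.D o x) := by gcongr
    _ = π * (Real.exp 15 * c) * kx d.su.L d.su.D o x := by ring
    _ ≤ _ := by gcongr

end Dat

end Crest.Agent.N334.Br
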