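import Crest.Agent.N334.Br.W1

/-!
# Row 334 (helper86): numerics of the concrete model; `ParStmt → WorldStmt`
-/

set_option autoImplicit false

open MeasureTheory Finset Function Real

noncomputable section

namespace Crest.Agent.N334.Br

open G I Sw Md

/-- size of the parameters of a class -/
structure Num (p : Par) (c : ℝ) : Prop where
  j : (p.j + 1 : ℝ) ≤ c * log (p.R + 1)
  P : p.P ≤ exp (c * log (p.R + 1))
  lo : exp (-(c * (p.R + 1))) ≤ p.δ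
  hi : p.δ ≤ exp (-((p.R + 1) / c))

/-- existence of the parameters -/
def ParStmt : Prop :=
  ∀ h E₀ : ℝ, 0 < h → |E₀| < 4 + h → ∃ δ c : ℝ, 0 < δ ∧ 1 ≤ c ∧ ∀ (E : ℝ) (r₁ r₂ : ℕ),
    |E - E₀| ≤ δ → c ≤ r₁ → r₁ ≤ r₂ → ∃ (p₁ p₂ : Par) (D A k : ℝ), r₁ = p₁.R + 1 ∧ r₂ = p₂.R + 1 ∧
      Led p₁ h E D A k ∧ Led p₂ h E D A k ∧ p₁.Mo = p₂.Mo ∧ p₁.b = p₂.b ∧ h⁻¹ + p₁.b⁻¹ ≤ D ∧
      (1 + (2 * h + 1) ^ 2) * (2 * D) + (|E| + 2 * h + 100) ≤ exp A ∧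
      A ≤ c * log r₂ ∧ k ≤ c ∧ Num p₁ c ∧ Num p₂ c

/-- the numeric hypotheses for one class -/
structure Ctx (d : Dat) (p : Par) (c C L : ℝ) : Prop where
  c1 : 1 ≤ c
  hC : 2 * 10 ^ 12 * c ^ 5 ≤ C
  num : Num p c
  L1 : 1 ≤ L
  hL : log (p.R + 1) ≤ L
  hr : C * L ^ 3 ≤ p.R + 1
  hA : d.A ≤ c * L
  hk : d.k ≤ c
  hR : p.R ≤ d.p₂.R
  hb : (d.b : ℝ) ≤ 2 * (d.p₂.R + 1 + 8)
  hη : d.η ≤ exp (-(C * (d.p₂.R + 1)))

theorem le_exp_self (x : ℝ) : x ≤ exp x := by linarith [add_one_le_exp x]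

theorem δ_le_s (p : Par) : p.δ ≤ p.s := by
  have hs := p.s_pos
  have hs1 : p.s ≤ 1 := p.s_le.trans (inv_le_one_of_one_le₀ (one_le_pow₀ (by linarith [p.big])))
  rw [← p.s_four]
  exact pow_le_of_le_one hs.le hs1 (by norm_num)

namespace Ctx

variable {d : Dat} {p : Par} {c C L : ℝ} (X : Ctx d p c C L)
include X

theorem cC : 10 ^ 12 * c ≤ C := by
  have := le_self_pow₀ X.c1 (show 5 ≠ 0 by norm_num)
  linarith [X.hC, X.c1]

theorem C_pos : 0 < C := by linarith [X.cC, X.c1]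

theorem CL : C * L ≤ p.R + 1 :=
  (mul_le_mul_of_nonneg_left (le_self_pow₀ X.L1 three_ne_zero) X.C_pos.le).trans X.hr

theorem C_le : C ≤ p.R + 1 := (le_mul_of_one_le_right X.C_pos.le X.L1).trans X.CL

theorem big : (10 : ℝ) ^ 12 ≤ p.R + 1 := by linarith [X.C_le, X.cC, X.c1]

theorem A_le : d.A ≤ p.R + 1 := by
  have h1 := X.hA
  have h2 := X.CL
  have h3 := X.cC
  have h4 := X.c1
  have h5 := X.L1
  nlinarith

theorem r_le : (p.R + 1 : ℝ) ≤ d.p₂.R + 1 := by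
  have : (p.R : ℝ) ≤ d.p₂.R := by exact_mod_cast X.hR
  linarith

theorem eta₁ : d.η * exp (d.A + 2 * d.k * d.b) ≤ 1 := by
  refine (mul_le_mul_of_nonneg_right X.hη (exp_pos _).le).trans ?_
  rw [← exp_add, exp_le_one_iff]
  have h1 := X.A_le
  have h2 := X.r_le
  have h3 := X.big
  have h4 := X.c1
  have h5 : (d.b : ℝ) ≤ 3 * (d.p₂.R + 1) := by linarith [X.hb]
  have h6 : d.k * d.b ≤ c * (3 * (d.p₂.R + 1)) :=
    mul_le_mul X.hk h5 (Nat.cast_nonneg _) (by linarith)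
  have h7 := mul_le_mul_of_nonneg_right X.cC (show (0 : ℝ) ≤ d.p₂.R + 1 by linarith)
  nlinarith

theorem eta₂ : d.η ≤ p.s * (p.δ ^ 2 / 16) := by
  have hδ := p.δ_pos
  have h1 : exp (-(c * (p.R + 1))) ^ 3 ≤ p.δ ^ 3 := pow_le_pow_left₀ (exp_pos _).le X.num.lo 3
  have h2 : p.δ ^ 3 / 16 ≤ p.s * (p.δ ^ 2 / 16) := by
    have := mul_le_mul_of_nonneg_right (δ_le_s p) (show 0 ≤ p.δ ^ 2 / 16 by positivity)
    linarith
  refine X.hη.trans (le_trans ?_ h2)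
  rw [le_div_iff₀ (by norm_num)]
  refine le_trans ?_ h1
  refine (mul_le_mul_of_nonneg_left (le_exp_self 16) (exp_pos _).le).trans ?_
  rw [← exp_add, ← exp_nat_mul, exp_le_exp]
  have h2 := X.r_le
  have h3 := X.big
  have h4 := X.c1
  have h7 := mul_le_mul X.cC h2 (by linarith) X.C_pos.le
  push_cast
  nlinarith

theorem s_le : p.s ≤ exp (-((p.R + 1) / c) / 4) := by
  refine (pow_le_pow_iff_left₀ p.s_pos.le (exp_pos _).le (by norm_num : 4 ≠ 0)).1 ?_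
  rw [p.s_four, ← exp_nat_mul]
  refine X.num.hi.trans (le_of_eq ?_)
  congr 1; push_cast; ring

theorem bp {κ : ℝ} (k0 : 0 ≤ κ) (hκ : κ * (d.b : ℝ) ^ 2 ≤ 1) {ctr : d.su.L.X → Prop}
    (hc : ∀ y, ctr y → d.sys.ce y = y ∧ d.sys.pa y = p) :
    d.su.BP ctr (p.δ ^ 2 / 2) κ (exp (-((p.R + 1) / C))) := by
  intro μ hμ W hW y hy γ h0 h1
  have c1 := X.c1
  have L1 := X.L1
  have hj : (p.j + 1 : ℝ) ≤ c * L := X.num.j.trans (by gcongr; exact X.hL)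
  have hcL : 1 ≤ c * L := one_le_mul_of_one_le_of_one_le c1 L1
  have e1 : c * L ≤ c * (c * L) := le_mul_of_one_le_left (by linarith) c1
  have e2 : d.k * (p.j + 1) ≤ c * (c * L) := mul_le_mul X.hk hj (by positivity) (by linarith)
  have e3 : ((p.j + 1 : ℕ) + 4004 : ℝ) ^ 2 ≤ (4005 * (c * L)) ^ 2 := by
    refine pow_le_pow_left₀ (by positivity) ?_ 2
    push_cast; linarith
  have e4 : 1 ≤ (4005 * (c * L)) ^ 2 := one_le_pow₀ (by linarith)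
  refine Dat.bp_ctr hμ hW k0 hκ (hc y hy).1 (hc y hy).2 h0 h1 X.eta₁ X.eta₂
    (Q := exp (3 * (c * (c * L)) * (4005 * (c * L)) ^ 2)) (lam := 3 * (c * (c * L)))
    (X.num.P.trans (exp_le_exp.2 ?_)) (by linarith) (by linarith [X.hA])
    (exp_le_exp.2 (by gcongr)) ?_
  · have : c * log (p.R + 1) ≤ c * L := by gcongr; exact X.hL
    nlinarith
  · refine (mul_le_mul_of_nonneg_left X.s_le (by positivity)).trans ?_
    rw [← exp_nat_mul, ← exp_add, exp_le_exp]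
    have hr : (0 : ℝ) < p.R + 1 := by positivity
    have f1 : (p.R + 1) / C ≤ (p.R + 1) / c / 8 := by
      rw [div_div]
      exact div_le_div_of_nonneg_left hr.le (by positivity) (by linarith [X.cC])
    have f2 : 2 * 10 ^ 12 * (c ^ 4 * L ^ 3) ≤ (p.R + 1) / c := by
      rw [le_div_iff₀ (by linarith)]
      have := mul_le_mul_of_nonneg_right X.hC (show 0 ≤ L ^ 3 by positivity)
      nlinarith [X.hr]
    have f3 : 0 ≤ c ^ 4 * L ^ 3 := by positivity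
    push_cast
    nlinarith

theorem z_ge : exp (-(5 * c * (p.R + 1))) ≤ p.δ ^ 2 / (64 * d.h * p.l ^ 2) := by
  have hh := d.L₁.h_pos
  have hl := p.l_pos
  have c1 := X.c1
  have h3 := X.big
  have h1 : exp (-(c * (p.R + 1))) ^ 2 ≤ p.δ ^ 2 := pow_le_pow_left₀ (exp_pos _).le X.num.lo 2
  have h2 : p.l ^ 2 ≤ exp (c * (p.R + 1)) := by
    have e : c * log (p.R + 1) ≤ c * (p.R + 1) := by
      gcongr; exact (log_le_sub_one_of_pos (by linarith)).trans (by linarith)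
    have := X.num.P.trans (exp_le_exp.2 e)
    nlinarith [p.lP]
  have h4 : 2 * d.h ≤ exp (p.R + 1) := by
    have e1 := d.hA
    have e2 := d.L₁.D_nonneg
    have e3 : 0 ≤ (1 + (2 * d.h + 1) ^ 2) * (2 * d.D) := by positivity
    have e4 := exp_le_exp.2 X.A_le
    linarith [abs_nonneg d.En]
  have h5 : 64 * d.h * p.l ^ 2 ≤ exp 32 * exp (p.R + 1) * exp (c * (p.R + 1)) := by
    rw [show 64 * d.h = 32 * (2 * d.h) by ring]
    gcongr; exact le_exp_self _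
  rw [le_div_iff₀ (by positivity)]
  refine le_trans (mul_le_mul_of_nonneg_left h5 (exp_pos _).le) (le_trans ?_ h1)
  rw [← exp_add, ← exp_add, ← exp_add, ← exp_nat_mul, exp_le_exp]
  push_cast
  nlinarith

theorem loss_le {κ : ℝ} (k1 : κ ≤ 1) {ρ : ℕ} (hρ : (ρ : ℝ) ≤ 13 * (p.R + 1)) :
    loss (10 * exp (d.A + 2 * d.k * (ρ + p.R : ℕ)) ^ 3) ((2 * ρ + 1) ^ 2) κ (3 * c * (p.R + 1)) ρ ≤
      exp (4200000 * (c * (p.R + 1) ^ 3)) := by
  have c1 := X.c1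
  have h3 := X.big
  have hA := X.A_le
  set r : ℝ := p.R + 1 with hr
  have hρ0 : (0 : ℝ) ≤ ρ := Nat.cast_nonneg _
  have hcr : r ≤ c * r := le_mul_of_one_le_left (by linarith) c1
  have e1 : d.k * (ρ + p.R : ℕ) ≤ c * (14 * r) :=
    mul_le_mul X.hk (by push_cast; linarith) (Nat.cast_nonneg _) (by linarith)
  set Λ := 10 * exp (d.A + 2 * d.k * (ρ + p.R : ℕ)) ^ 3 with hΛ
  have hΛ0 : 0 < Λ := by positivity
  have e2 : Λ ≤ exp (88 * (c * r)) := by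
    refine (mul_le_mul_of_nonneg_right (le_exp_self 10) (by positivity)).trans ?_
    rw [← exp_nat_mul, ← exp_add, exp_le_exp]
    push_cast at e1 ⊢
    linarith
  have e3 : log Λ ≤ 88 * (c * r) := (log_le_iff_le_exp hΛ0).2 e2
  have e4 : (2 * (ρ : ℝ) + 1) ^ 2 ≤ (27 * r) ^ 2 := pow_le_pow_left₀ (by positivity) (by linarith) 2
  have e5 : ((ρ : ℝ) + 4004) ^ 2 ≤ (14 * r) ^ 2 := pow_le_pow_left₀ (by positivity) (by linarith) 2
  have e6 : 36 * (2 * (ρ : ℝ) + 1) ^ 2 * log Λ ≤ 36 * (27 * r) ^ 2 * (88 * (c * r)) :=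
    (mul_le_mul_of_nonneg_left e3 (by positivity)).trans (by gcongr)
  have e7 : 2 * κ * (2 * (ρ : ℝ) + 1) ^ 2 ≤ 2 * 1 * (27 * r) ^ 2 := by gcongr
  have e8 : 3000 * (3 * c * r) * ((ρ : ℝ) + 4004) ^ 2 ≤ 3000 * (3 * c * r) * (14 * r) ^ 2 := by
    gcongr
  have e9 : ((2 * (ρ : ℝ) + 1) ^ 2) ^ 3 ≤ exp ((27 * r) ^ 2) ^ 3 :=
    pow_le_pow_left₀ (by positivity) (e4.trans (le_exp_self _)) 3
  have f1 : r ^ 2 ≤ c * r ^ 3 := by nlinarith [mul_le_mul_of_nonneg_left hcr (sq_nonneg r)]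
  have f2 : c * r ≤ c * r ^ 3 := by
    gcongr; exact le_self_pow₀ (by linarith) three_ne_zero
  unfold loss
  refine (mul_le_mul (mul_le_mul (pow_le_pow_left₀ hΛ0.le e2 30) e9 (by positivity) (by positivity))
    (exp_le_exp.2 (add_le_add (add_le_add e7 e6) e8)) (by positivity) (by positivity)).trans ?_
  rw [← exp_nat_mul, ← exp_nat_mul, ← exp_add, ← exp_add, exp_le_exp]
  push_cast
  nlinarith

theorem lc {κ : ℝ} (k0 : 0 ≤ κ) (hκ : κ * (d.b : ℝ) ^ 2 ≤ 1) {src : d.su.L.X → Prop}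
    {tg : d.su.L.X → d.su.L.X} {ρ : ℕ} (hρ1 : p.R + 1 ≤ ρ) (hρ2 : ρ ≤ 7 * d.b)
    (hρ3 : (ρ : ℝ) ≤ 13 * (p.R + 1)) (hc : ∀ o, src o → d.sys.ce (tg o) = tg o ∧
      d.sys.pa (tg o) = p ∧ d1 (M := d.sys.g.M) o (tg o) + 2 ≤ ρ) :
    d.su.LC src tg (p.δ ^ 2 / 2) κ (C * (p.R + 1) ^ 3) := by
  intro μ hμ W hW o ho hy q h0 h1
  have c1 := X.c1
  have h3 := X.big
  have hA := X.A_le
  have hb : (8 : ℝ) ≤ d.b := by exact_mod_cast d.sys.g.eight_le_b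
  have k1 : κ ≤ 1 := by nlinarith [mul_le_mul_of_nonneg_left (show (1 : ℝ) ≤ d.b ^ 2 by nlinarith) k0]
  have hcr : (p.R + 1 : ℝ) ≤ c * (p.R + 1) := le_mul_of_one_le_left (by linarith) c1
  have e1 : d.k * (p.R + 1) ≤ c * (p.R + 1) := mul_le_mul_of_nonneg_right X.hk (by linarith)
  refine Dat.lc_ctr hμ hW k0 hκ (hc o ho).1 (hc o ho).2.1 (hc o ho).2.2 hρ1 hρ2 hy h0 h1 X.eta₁
    (lam := 3 * c * (p.R + 1)) (by linarith) (by linarith) ?_
  have e2 : exp (-(c * (p.R + 1))) ^ 2 ≤ p.δ ^ 2 := pow_le_pow_left₀ (exp_pos _).le X.num.lo 2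
  have e3 : exp (-(c * (p.R + 1))) ^ 2 / exp 2 ≤ p.δ ^ 2 / 2 := by gcongr; exact le_exp_self 2
  have e4 := pow_le_pow_left₀ (exp_pos _).le X.z_ge ((2 * (p.R + 1) + 1) ^ 2)
  refine (mul_le_mul_of_nonneg_left (div_le_div₀ (exp_pos _).le (X.loss_le k1 hρ3) (by positivity)
    (mul_le_mul e3 e4 (by positivity) (by positivity))) (exp_pos _).le).trans ?_
  rw [← exp_nat_mul, ← exp_nat_mul, ← exp_sub, ← exp_add, ← exp_sub, ← exp_add, exp_le_exp]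
  push_cast
  set r : ℝ := p.R + 1 with hr
  have f1 : (2 * r + 1) ^ 2 ≤ (3 * r) ^ 2 := pow_le_pow_left₀ (by linarith) (by linarith) 2
  have f2 : c * r ≤ c * r ^ 3 := by
    gcongr; exact le_self_pow₀ (by linarith) three_ne_zero
  have f3 := mul_le_mul_of_nonneg_right f1 (show 0 ≤ 5 * c * r by positivity)
  have f4 := mul_le_mul_of_nonneg_right X.cC (show 0 ≤ r ^ 3 by positivity)
  nlinarith

theorem inv_h : d.h⁻¹ ≤ exp (p.R + 1) := by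
  have e1 := d.hA
  have e2 := d.L₁.D_nonneg
  have e3 := d.sys.hD
  have e4 := exp_le_exp.2 X.A_le
  have hh := d.L₁.h_pos
  change d.h⁻¹ ≤ d.D at e3
  nlinarith [abs_nonneg d.En, mul_nonneg (sq_nonneg (2 * d.h + 1)) e2]

omit X in
theorem ud_le {h : ℝ} (hh : 0 < h) (a : ℝ) : ud h a ≤ h⁻¹ / 2 := by
  unfold ud; split_ifs
  · exact le_of_eq (by field_simp)
  · positivity

theorem den_le (s : Site d.h) (hs : p.δ ^ 2 / (64 * d.h * p.l ^ 2) ≤ s.z ∨ s.wd = ud d.h)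
    (l : Bool) (a : ℝ) : s.den l a ≤ exp (C * (d.p₂.R + 1) ^ 3) := by
  have hh := d.L₁.h_pos
  have c1 := X.c1
  have h3 := X.big
  have h1 := ud_le hh a
  have h2 := X.inv_h
  have h4 := ud_nonneg hh a
  have hcr : (p.R + 1 : ℝ) ≤ c * (p.R + 1) := le_mul_of_one_le_left (by linarith) c1
  have key : exp (6 * c * (p.R + 1)) ≤ exp (C * (d.p₂.R + 1) ^ 3) := by
    refine exp_le_exp.2 (mul_le_mul (by linarith [X.cC]) (X.r_le.trans
      (le_self_pow₀ (by linarith [X.r_le]) three_ne_zero)) (by linarith) X.C_pos.le)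
  have h5 : exp (p.R + 1) ≤ exp (6 * c * (p.R + 1)) := exp_le_exp.2 (by linarith)
  refine le_trans ?_ key
  cases l
  · have := s.z_le
    have := mul_nonneg s.z_nonneg (s.nonneg a)
    have h6 := inv_pos.2 hh
    change (ud d.h a - s.z * s.wd a) / (1 - s.z) ≤ _
    refine le_trans ?_ (h2.trans h5)
    rw [div_le_iff₀ (by linarith)]
    nlinarith
  · change s.wd a ≤ _
    rcases hs with hs | hs
    · have h6 := mul_le_mul_of_nonneg_right (X.z_ge.trans hs) (s.nonneg a)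
      have h7 : exp (-(5 * c * (p.R + 1))) * s.wd a ≤ exp (p.R + 1) := by linarith [s.le a]
      rw [exp_neg, inv_mul_le_iff₀ (exp_pos _), ← exp_add] at h7
      exact h7.trans (exp_le_exp.2 (by linarith))
    · rw [hs]; linarith

end Ctx

theorem world_of (H : ParStmt) : Mn.WorldStmt := by
  intro h E₀ hh hE
  obtain ⟨δ, c, hδ, c1, H⟩ := H h E₀ hh hE
  have c5 : c ≤ c ^ 5 := le_self_pow₀ c1 (by norm_num)
  refine ⟨δ, 2 * 10 ^ 12 * c ^ 5, hδ, by linarith, ?_⟩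
  intro E η κ N a b r₁ r₂ hE η0 k0 hN dvd₁ dvd₂ le₁ ha le₂ hb hC hL hr hη hκ
  have h12 : r₁ ≤ r₂ := (Nat.le_self_pow two_ne_zero r₁).trans hr
  obtain ⟨p₁, p₂, D, A, k, rfl, rfl, L₁, L₂, hMo, hb', hD, hA, hAc, hk, n₁, n₂⟩ :=
    H E r₁ r₂ hE (by linarith) h12
  set C := 2 * 10 ^ 12 * c ^ 5 with hCd
  push_cast at hC hL hη hAc ⊢
  have h12' : (p₁.R + 1 : ℝ) ≤ p₂.R + 1 := by exact_mod_cast h12
  have η1 : η ≤ 1 := hη.trans (exp_le_one_iff.2 (neg_nonpos.2 (by positivity)))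
  let d : Dat := ⟨N, hN, a, b, p₁, p₂, dvd₁, dvd₂, le₁, le₂, h, E, D, A, k, η, η0, η1, L₁, L₂, hMo,
    hb', hD, hA⟩
  have L1 : 1 ≤ log (p₂.R + 1) := by
    rw [le_log_iff_exp_le (by positivity)]
    linarith [exp_one_lt_three]
  have hb2 : (b : ℝ) ≤ 2 * (p₂.R + 1 + 8) := by exact_mod_cast hb
  have ha2 : (a : ℝ) ≤ 2 * (p₁.R + 1 + 8) := by exact_mod_cast ha
  have X₁ : Ctx d p₁ c C (log (p₂.R + 1)) := ⟨c1, le_rfl, n₁, L1, log_le_log (by positivity) h12',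
    hL, hAc, hk, by change p₁.R ≤ p₂.R; omega, hb2, hη⟩
  have X₂ : Ctx d p₂ c C (log (p₂.R + 1)) := ⟨c1, le_rfl, n₂, L1, le_rfl, hL.trans h12', hAc, hk,
    le_rfl, hb2, hη⟩
  have hab : a ≤ b := d.sys.g.a_le_b
  refine ⟨d.su, rfl, rfl, rfl, rfl, rfl, rfl, X₁.bp k0 hκ fun y hy => ?_, X₂.bp k0 hκ fun y hy => ?_,
    X₁.lc k0 hκ (ρ := 2 * a + 2) (by omega) (by change _ ≤ 7 * b; omega)
      (by push_cast; linarith [X₁.big]) fun o ho => ?_,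
    X₂.lc k0 hκ (ρ := 6 * b + 2) (by omega) (by change _ ≤ 7 * b; omega)
      (by push_cast; linarith [X₂.big]) fun o ho => ?_, fun x l t => ?_⟩
  · exact ⟨(Sys.ce_eq_iff (S := d.sys)).2 (Or.inl hy), Sys.pa_ctr₁ (S := d.sys) hy⟩
  · exact ⟨(Sys.ce_eq_iff (S := d.sys)).2 (Or.inr hy), Sys.pa_ctr₂ (S := d.sys) hy⟩
  · have hy := Geo.ctr₁_c₁ (g := d.sys.g) ho.1
    exact ⟨(Sys.ce_eq_iff (S := d.sys)).2 (Or.inl hy), Sys.pa_ctr₁ (S := d.sys) hy,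
      Nat.add_le_add_right (d.sys.g.d1_c₁_le o) 2⟩
  · have hy := Geo.ctr₂_c₂ (g := d.sys.g) o
    exact ⟨(Sys.ce_eq_iff (S := d.sys)).2 (Or.inr hy), Sys.pa_ctr₂ (S := d.sys) hy,
      Nat.add_le_add_right (d.sys.g.d1_c₂_le o) 2⟩
  · by_cases h1 : d.sys.g.blk₁ x
    · exact X₁.den_le _ (Or.inl ((L₁.le_z _).trans_eq
        (congrArg Site.z (Geo.site_blk₁ (g := d.sys.g) hh L₁.site L₂.site h1)).symm)) l t
    · by_cases h2 : d.sys.g.blk₂ x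
      · exact X₂.den_le _ (Or.inl ((L₂.le_z _).trans_eq
          (congrArg Site.z (Geo.site_blk₂ (g := d.sys.g) hh L₁.site L₂.site h2)).symm)) l t
      · exact X₂.den_le _ (Or.inr
          (congrArg Site.wd (Geo.site_other (g := d.sys.g) hh L₁.site L₂.site h1 h2))) l t

end Crest.Agent.N334.Br
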