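import Crest.Agent.N334.Br.Defs
import Crest.Agent.N334.T.BP
import Crest.Agent.N334.T.LC

/-!
# Row 334, bridge from the engine `T` to `Sw.BPat`, `Sw.LCat`: the bias at the centre of a block (leaf Br-X1)
-/

set_option autoImplicit false

open MeasureTheory Complex Finset Function
open scoped ENNReal

noncomputable section

namespace Crest.Agent.N334.Br

open G I Sw

namespace X1

theorem map_upd {X : Type} [DecidableEq X] {μ μ' : X → Measure ℂ} {y : X} {E η : ℝ}
    (hμ : ∀ x, x ≠ y → μ' x = (μ x).map (toT E η)) (ρ : Measure ℂ) :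
    (fun x => (update μ y ρ x).map (toT E η)) = update μ' y (ρ.map (toT E η)) := by
  funext x
  rcases eq_or_ne x y with rfl | hx
  · rw [update_self, update_self]
  · rw [update_of_ne hx, update_of_ne hx, hμ x hx]

/-- strength of a port in the coordinates of `T` -/
def st (η : ℝ) (β : Bool) (z : ℂ) : ℝ := if β then |z.im| else η

theorem st_nonneg {η : ℝ} (hη : 0 < η) (β : Bool) (z : ℂ) : 0 ≤ st η β z := by
  cases β
  exacts [hη.le, abs_nonneg _]

theorem measurable_st (η : ℝ) (β : Bool) : Measurable (st η β) := by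
  unfold st; cases β <;> simp only [if_true, Bool.false_eq_true, if_false] <;> fun_prop

variable {V : Type} [Fintype V] [DecidableEq V] (E' : T.Env V)

theorem hb_st {W : (V → ℂ) → ℝ≥0∞} {k : ℝ} (hW : ∀ x, T.Temp W x k)
    (hWb : ∀ w x z, W (update w x z) ≤ ENNReal.ofReal (Real.exp k) * W w) (x : V)
    (hη : E'.η * E'.Λ x ≤ 1) (β : Bool) (B : Finset V) :
    T.Temp (fun w => ENNReal.ofReal (st E'.η β (w x)) * W w) x k ∧
      E'.HB (fun w => ENNReal.ofReal (st E'.η β (w x)) * W w) x k B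
        (ENNReal.ofReal 100 * ∫⁻ w, W w ∂Measure.pi E'.μ) := by
  cases β
  · refine ⟨⟨(hW x).1.const_mul (ENNReal.ofReal E'.η), (hW x).2.1, (hW x).2.2.1, fun w v z _ => ?_⟩,
      fun R hR hb z hz => ?_⟩
    · simp only [st, Bool.false_eq_true, if_false]
      rw [mul_left_comm]
      exact mul_le_mul_right (hWb w v z) _
    · have h := E'.hb_pas (hW x) (fun w z => hWb w x z) B R hR hb z hz
      simp only [T.Env.Aq, st, Bool.false_eq_true, if_false, mul_assoc] at h ⊢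
      rw [lintegral_const_mul' _ _ ENNReal.ofReal_ne_top]
      refine (mul_le_mul_right h _).trans ?_
      rw [mul_left_comm, ← mul_assoc (ENNReal.ofReal E'.η), ← ENNReal.ofReal_mul E'.η0.le]
      gcongr
      linarith
  · obtain ⟨h1, h2⟩ := E'.hb_act (hW x) B
    refine ⟨h1, fun R hR hb z hz => (h2 R hR hb z hz).trans (mul_le_mul_right ?_ _)⟩
    exact le_mul_of_one_le_left' (by simp)

theorem ae_im (E : ℝ) {γ : ℝ} (hγ : 0 ≤ γ) (ν : Measure ℝ) [IsProbabilityMeasure ν] (y : V) :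
    ∀ᵐ w ∂Measure.pi (update E'.μ y (Md.tl E γ ν)), |(w y).im| = γ := by
  refine (Measure.tendsto_eval_ae_ae (i := y)).eventually (p := fun z : ℂ => |z.im| = γ) ?_
  rw [update_self]
  refine (ae_map_iff (Md.measurable_sh E γ).aemeasurable
    (measurableSet_eq_fun (by fun_prop) measurable_const)).2 (ae_of_all _ fun a => ?_)
  rw [Md.sh_im, abs_neg, abs_of_nonneg hγ]

theorem exp_le {k : ℝ} (k1 : k ≤ 1) : Real.exp k ≤ 3 :=
  (Real.exp_le_exp.2 k1).trans Real.exp_one_lt_three.le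

end X1
open X1

/-- Pass to `T` by `Ip_eq_lint` (`map_lift`, `toT_pt`, `lint_site` with the Dirac law) and `cc_KT`:
at the reference `γ / b * cc = 4 γ str |GG y x|²`.  Put `W~ w = ofReal (W (KT (update w y yh)))`
(`temp_KT_update`; it does not depend on `w y`, so `lint_update_law`, and `W~ ≤ e^k W (KT w)`).
Source `x ∉ B`: `Block.bp` with the weight `|Im w x| * W~` and `hb_act` (active port), with `W~` and
`hb_pas` (passive port, `η * 100 Λ ≤ 100`); `4 γ str |Gr y x|² = cc (KT w)` as `|Im w y| = γ` a.e.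
Source `x ∈ B.erase y`: the active port has `Im (w x) = 0` a.e. (`hB.hi`), the passive one is
bounded by `lint_site` and `site_GG` (`c = C = 1`): `η e^{2k} 4 P² / win x ≤ 4 e² P² s`.
Source `y`: `cc ≤ 4`, `γ / b ≤ P s⁸`. -/
theorem x1 {L : G.Lat} {E' : T.Env L.X} (hA : Adj L E'.G) {E : ℝ} {B Z : Finset L.X} {y : L.X}
    {u : L.X → ℂ} {win : L.X → ℝ} {a₀ b γ P s lam : ℝ} {l : ℕ}
    (hB : T.Block E' (Md.tl E γ (law a₀ b)) B Z y u win b γ P s lam l)
    (hr : (E'.r y).re = a₀ - E) (μ : L.X → Measure ℂ) [∀ x, IsProbabilityMeasure (μ x)]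
    (hμ : ∀ x, x ≠ y → E'.μ x = (μ x).map (toT E E'.η)) {W : L.Mat → ℝ} {k Q : ℝ}
    (hW : Temp E E'.η W k) (k0 : 0 ≤ k) (k1 : k ≤ 1) (hP : P ≤ Q)
    (hk : Real.exp (k * B.card) ≤ Q) (hκ : Real.exp (∑ x ∈ B, E'.κ x) ≤ Q)
    (hl : Real.exp (lam * (l + 4004) ^ 2) ≤ Q) (hη : ∀ x, E'.η * E'.Λ x ≤ 1)
    (hη' : ∀ x ∈ B.erase y, E'.η ≤ s * win x) (q : L.P) {D : ℕ}
    (hD : q.1 ∉ B → ∀ z ∈ Z, q.1 ∉ T.ball E'.G z (3 * D)) (hD0 : q.1 ∈ B → D = 0) :
    γ / b * Ip L E E'.η (update μ y (Measure.dirac (pt (E'.η + b) a₀)))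
        (fun K => W K * cc K (y, true) q) ≤
      Q ^ 3110 * s * (Ip L E E'.η (update μ y (lift (E'.η + γ) (law a₀ b)))
        (fun K => W K * cc K (y, true) q) + Real.exp (-(lam * D ^ 2)) * Ip L E E'.η μ W) := by
  have hη0 := E'.η0
  have hb := hB.h_pos
  have hγ := hB.γ0
  have hP0 := hB.P_pos
  have hs := hB.s0
  have hQ : 1000 ≤ Q := hB.big.trans hP
  have hs1 : s ≤ 1 := by linarith [hB.sP0]
  have hγs : γ ≤ s := by
    have : s ^ 8 ≤ s := pow_le_of_le_one hs.le hs1 (by norm_num)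
    linarith [hB.γ1]
  have hek := exp_le k1
  have hek0 := Real.exp_pos k
  have := law_prob a₀ hb
  obtain ⟨x, β⟩ := q
  have hN : Nice fun K => W K * cc K (y, true) (x, β) := hW.1.mul (nice_cc _ _)
  have hN0 : ∀ K, IsPort K → 0 ≤ W K * cc K (y, true) (x, β) :=
    fun K hK => mul_nonneg (hW.2.1 K hK) (cc_nonneg _ _ _)
  set yh := E'.yh y b with hyh
  have hyim : |yh.im| = b := by simp [hyh, T.Env.yh, abs_of_pos hb]
  set F : (L.X → ℂ) → ℝ≥0∞ := fun w =>
    ENNReal.ofReal (W (KT L E E'.η w) * cc (KT L E E'.η w) (y, true) (x, β)) with hF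
  have hFm : Measurable F := (hN.meas.comp measurable_KT).ennreal_ofReal
  set Wt : (L.X → ℂ) → ℝ≥0∞ := fun w => ENNReal.ofReal (W (KT L E E'.η (update w y yh))) with hWt
  have hT : ∀ v, T.Temp Wt v k := temp_KT_update hη0 hW k0 k1 y yh
  have hTb : ∀ w v z, Wt (update w v z) ≤ ENNReal.ofReal (Real.exp k) * Wt w := fun w v z => by
    rcases eq_or_ne v y with rfl | hv
    · simp only [hWt, update_idem]
      exact le_mul_of_one_le_left' (ENNReal.one_le_ofReal.2 (Real.one_le_exp k0))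
    · exact (hT y).2.2.2 w v z hv
  have hWW : ∀ w, Wt w ≤ ENNReal.ofReal 3 * ENNReal.ofReal (W (KT L E E'.η w)) := fun w => by
    rw [← ENNReal.ofReal_mul (by norm_num)]
    refine ENNReal.ofReal_le_ofReal ?_
    rw [KT_update]
    exact (hW.2.2 _ _ _).trans (mul_le_mul_of_nonneg_right hek (hW.2.1 _ (port_KT hη0 w)))
  have e1 : ENNReal.ofReal (Ip L E E'.η (update μ y (Measure.dirac (pt (E'.η + b) a₀)))
      fun K => W K * cc K (y, true) (x, β)) = ∫⁻ w, F (update w y yh) ∂Measure.pi E'.μ := by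
    have h1 : toT E E'.η (pt (E'.η + b) a₀) = yh := by
      rw [toT_pt hb.le, hyh, T.Env.yh, hr]; rfl
    rw [Ip_eq_lint hη0 _ hN hN0, map_upd hμ, Measure.map_dirac' measurable_toT, h1,
      lintegral_pi_update _ _ _ hFm]
    simp only [lintegral_dirac]
  have e2 : ENNReal.ofReal (Ip L E E'.η (update μ y (lift (E'.η + γ) (law a₀ b)))
      fun K => W K * cc K (y, true) (x, β)) =
      ∫⁻ w, F w ∂Measure.pi (update E'.μ y (Md.tl E γ (law a₀ b))) := by
    rw [Ip_eq_lint hη0 _ hN hN0, map_upd hμ, map_lift hγ]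
  have e3 : ∫⁻ w, Wt w ∂Measure.pi E'.μ ≤ ENNReal.ofReal 3 * ENNReal.ofReal (Ip L E E'.η μ W) := by
    have h1 := map_upd hμ (μ y)
    rw [update_eq_self] at h1
    rw [Ip_eq_lint hη0 _ hW.1 hW.2.1, h1,
      T.lint_update_law E'.μ y ((μ y).map (toT E E'.η)) (hT y).1
        (fun w z => by simp only [hWt, update_idem]),
      ← lintegral_const_mul' _ _ ENNReal.ofReal_ne_top]
    exact lintegral_mono hWW
  have i2 := Ip_nonneg (E := E) hη0 (update μ y (lift (E'.η + γ) (law a₀ b))) hN0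
  have i3 := Ip_nonneg (E := E) hη0 μ hW.2.1
  have hQs : 0 ≤ Q ^ 3110 * s := by positivity
  refine (ENNReal.ofReal_le_ofReal_iff
    (mul_nonneg hQs (add_nonneg i2 (mul_nonneg (Real.exp_pos _).le i3)))).1 ?_
  rw [ENNReal.ofReal_mul (by positivity), ENNReal.ofReal_mul hQs, ENNReal.ofReal_add i2
    (by positivity), ENNReal.ofReal_mul (Real.exp_pos _).le, e1, e2]
  generalize ENNReal.ofReal (Ip L E E'.η μ W) = J3 at e3 ⊢
  have hcc : x ≠ y → ∀ w, ENNReal.ofReal (γ / b) * F (update w y yh) =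
      ENNReal.ofReal (4 * γ) * (ENNReal.ofReal (st E'.η β (w x)) * Wt w *
        ENNReal.ofReal (‖E'.GG y b w y x‖ ^ 2)) := fun hx w => by
    have h1 := st_nonneg hη0 β (w x)
    have h2 := hW.2.1 _ (port_KT (E := E) hη0 (update w y yh))
    simp only [hF, hWt, cc_KT hA hη0, update_self, update_of_ne hx, hyim]
    rw [← ENNReal.ofReal_mul (by positivity), ← ENNReal.ofReal_mul h1,
      ← ENNReal.ofReal_mul (by positivity), ← ENNReal.ofReal_mul (by positivity)]
    congr 1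
    change _ * (_ * (4 * b * st E'.η β (w x) * ‖E'.GG y b w y x‖ ^ 2)) = _
    field_simp
  have fin : ∀ c : ℝ, 0 ≤ c → 3 * c ≤ Q ^ 3110 * s → x ∈ B →
      ENNReal.ofReal c * ∫⁻ w, Wt w ∂Measure.pi E'.μ ≤ ENNReal.ofReal (Q ^ 3110 * s) *
        (∫⁻ w, F w ∂Measure.pi (update E'.μ y (Md.tl E γ (law a₀ b))) +
          ENNReal.ofReal (Real.exp (-(lam * D ^ 2))) * J3) := fun c hc h hx => by
    rw [hD0 hx]
    simp only [CharP.cast_eq_zero, ne_eq, OfNat.ofNat_ne_zero, not_false_eq_true, zero_pow,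
      mul_zero, neg_zero, Real.exp_zero, ENNReal.ofReal_one, one_mul]
    refine (mul_le_mul_right e3 _).trans ?_
    rw [← mul_assoc, ← ENNReal.ofReal_mul hc]
    exact mul_le_mul' (ENNReal.ofReal_le_ofReal (by linarith)) le_add_self
  have hQ3 : ∀ c : ℝ, c ≤ Q ^ 3 → c * s ≤ Q ^ 3110 * s := fun c hc =>
    mul_le_mul_of_nonneg_right (hc.trans (pow_le_pow_right₀ (by linarith) (by norm_num))) hs.le
  have hPQ : P ^ 2 ≤ Q ^ 2 := pow_le_pow_left₀ hP0.le hP 2
  rw [← lintegral_const_mul' _ _ ENNReal.ofReal_ne_top]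
  by_cases hxy : x = y
  · refine le_trans ?_ (fin (4 * P * s) (by positivity) ?_ (hxy ▸ hB.yB))
    · rw [← lintegral_const_mul' _ _ ENNReal.ofReal_ne_top]
      refine lintegral_mono fun w => ?_
      have hK := port_KT (E := E) hη0 (update w y yh)
      have h2 := hW.2.1 _ hK
      have h3 := (cc_le_dd _ (y, true) (x, β)).trans (hK.dd_le _)
      have h4 : γ / b ≤ P * s := by
        rw [div_le_iff₀ hb]; nlinarith [hB.Ph]
      simp only [hF, hWt]
      rw [← ENNReal.ofReal_mul (by positivity), ← ENNReal.ofReal_mul (by positivity)]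
      refine ENNReal.ofReal_le_ofReal ?_
      calc _ ≤ P * s * (W (KT L E E'.η (update w y yh)) * 4) := by
            have := cc_nonneg (KT L E E'.η (update w y yh)) (y, true) (x, β)
            gcongr
        _ = _ := by ring
    · refine le_trans (le_of_eq (by ring)) (hQ3 (12 * P) ?_)
      nlinarith
  simp only [hcc hxy]
  rw [lintegral_const_mul' _ _ ENNReal.ofReal_ne_top]
  by_cases hxB : x ∈ B
  · have hx : x ∈ B.erase y := mem_erase.2 ⟨hxy, hxB⟩
    have hw : 0 < win x := hη0.trans_le (hB.win0 x hx).1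
    have h1 := T.Lc.site_bd E'.μ (hT y).1
      (f := fun w => ENNReal.ofReal (‖E'.GG y b w y x‖ ^ 2 * st E'.η β (w x)))
      ((((E'.measurable_GG y b y x).norm.pow_const 2).mul
        ((measurable_st _ _).comp (measurable_pi_apply x))).ennreal_ofReal) x
      (fun w z => hTb w x z) fun w => by
        simp only [update_self]
        exact hB.site_GG hx w (measurable_st _ β) hη0.le fun v _ => by
          cases β <;> simp [st, hη0.le]
    refine le_trans ?_ (fin (4 * γ * (Real.exp k * (4 * P ^ 2 / win x * E'.η))) (by positivity)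
      ?_ hxB)
    · rw [ENNReal.ofReal_mul (p := 4 * γ) (by positivity), ENNReal.ofReal_mul hek0.le, mul_assoc]
      refine mul_le_mul_right (le_trans (le_of_eq (lintegral_congr fun w => ?_)) h1) _
      rw [ENNReal.ofReal_mul (by positivity)]; ring
    · have h2 : 4 * P ^ 2 / win x * E'.η ≤ 4 * P ^ 2 * s := by
        rw [div_mul_eq_mul_div, div_le_iff₀ hw, mul_assoc (4 * P ^ 2)]
        exact mul_le_mul_of_nonneg_left (hη' x hx) (by positivity)
      refine le_trans ?_ (hQ3 (144 * P ^ 2) (by nlinarith))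
      calc _ ≤ 3 * (4 * 1 * (3 * (4 * P ^ 2 * s))) := by gcongr; linarith
        _ = _ := by ring
  obtain ⟨h1, h2⟩ := hb_st E' hT hTb x (hη x) β B
  have h3 := hB.bp h1 hxB (hD hxB) h2 hP hk hκ hl
  rw [← T.lint_update_law E'.μ y _ (g := fun w => ENNReal.ofReal (st E'.η β (w x)) * Wt w *
    ENNReal.ofReal (‖E'.GG y b w y x‖ ^ 2)) (h1.1.mul
    ((E'.measurable_GG y b y x).norm.pow_const 2).ennreal_ofReal) fun w z => by
      simp only [hWt, T.Env.GG, update_idem, update_of_ne hxy]] at h3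
  have h4 : ENNReal.ofReal (4 * γ) * T.Rq E'.G E'.η (update E'.μ y (Md.tl E γ (law a₀ b)))
      (fun w => ENNReal.ofReal (st E'.η β (w x)) * Wt w) y x ≤ ENNReal.ofReal 3 *
        ∫⁻ w, F w ∂Measure.pi (update E'.μ y (Md.tl E γ (law a₀ b))) := by
    rw [T.Rq, ← lintegral_const_mul' _ _ ENNReal.ofReal_ne_top,
      ← lintegral_const_mul' _ _ ENNReal.ofReal_ne_top]
    refine lintegral_mono_ae ?_
    filter_upwards [ae_im E' E hγ (law a₀ b) y] with w hw
    have h5 := st_nonneg hη0 β (w x)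
    have h6 := hW.2.1 _ (port_KT (E := E) hη0 w)
    refine (mul_le_mul_right (mul_le_mul_left (mul_le_mul_right (hWW w) _) _) _).trans
      (le_of_eq ?_)
    simp only [hF, cc_KT hA hη0, hw]
    change _ = _ * ENNReal.ofReal (_ * (4 * γ * st E'.η β (w x) * _))
    rw [ENNReal.ofReal_mul h6, ENNReal.ofReal_mul (p := 4 * γ * _) (by positivity),
      ENNReal.ofReal_mul (p := 4 * γ) (by positivity)]
    ring
  have h5 : ENNReal.ofReal (4 * γ) * (ENNReal.ofReal 100 * ∫⁻ w, Wt w ∂Measure.pi E'.μ) ≤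
      ENNReal.ofReal 1200 * J3 := by
    refine (mul_le_mul_right (mul_le_mul_right e3 _) _).trans ?_
    rw [← mul_assoc, ← mul_assoc, ← ENNReal.ofReal_mul (by positivity),
      ← ENNReal.ofReal_mul (by positivity)]
    exact mul_le_mul_left (ENNReal.ofReal_le_ofReal (by linarith)) _
  have h6 : ENNReal.ofReal (Q ^ 3100 * s) * ENNReal.ofReal 1200 ≤
      ENNReal.ofReal (Q ^ 3110 * s) := by
    rw [← ENNReal.ofReal_mul (by positivity)]
    refine ENNReal.ofReal_le_ofReal ?_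
    have h7 : 1200 ≤ Q ^ 10 :=
      le_trans (by nlinarith) (pow_le_pow_right₀ (by linarith) (show 2 ≤ 10 by norm_num))
    rw [show 3110 = 3100 + 10 from rfl, pow_add, mul_right_comm]
    gcongr
  refine (mul_le_mul_right h3 _).trans (le_trans ?_ (mul_le_mul_left h6 _))
  rw [mul_left_comm, mul_assoc]
  refine mul_le_mul_right ?_ _
  rw [mul_add, mul_add, mul_left_comm (ENNReal.ofReal (4 * γ)),
    mul_left_comm (ENNReal.ofReal 1200)]
  exact add_le_add (h4.trans (mul_le_mul_left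
    (ENNReal.ofReal_le_ofReal (by norm_num)) _)) (mul_le_mul_right h5 _)

/-- `Iw_eq`; for a label field with `y` active `law_update_of_act` and `x1`; otherwise the law at
`y` is closed (`law_update_of_not_act`, `law_of_not_act`), so `cc K (y,true) q = 0` a.e. -/
theorem bpat {L : G.Lat} {h : ℝ} (hh : 0 < h) (lab : Lab L.X h) {G : SimpleGraph L.X} (hA : Adj L G)
    {E η : ℝ} (hη0 : 0 < η) (μ : L.X → Measure ℂ) [∀ x, IsProbabilityMeasure (μ x)]
    {B Z : Finset L.X} {y : L.X} {u : L.X → ℂ} {win : L.X → ℝ} {a₀ b γ P s lam : ℝ} {l : ℕ}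
    {W : L.Mat → ℝ} {k Q : ℝ} (hW : Temp E η W k) (k0 : 0 ≤ k) (k1 : k ≤ 1) (hb : 0 < b)
    (hγ : 0 ≤ γ) (hs : 0 ≤ s) (hQ : 0 ≤ Q) (hP : P ≤ Q) (hk : Real.exp (k * B.card) ≤ Q)
    (hl : Real.exp (lam * (l + 4004) ^ 2) ≤ Q) (hη' : ∀ x ∈ B.erase y, η ≤ s * win x)
    {D : L.X → ℕ} (hD : ∀ x ∉ B, ∀ z ∈ Z, x ∉ T.ball G z (3 * D x)) (hD0 : ∀ x ∈ B, D x = 0)
    (henv : ∀ lb, lab.act lb y → ∃ E' : T.Env L.X, E'.G = G ∧ E'.η = η ∧
      (∀ x, x ≠ y → E'.μ x = (lab.law η μ lb x).map (toT E η)) ∧ (E'.r y).re = a₀ - E ∧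
      T.Block E' (Md.tl E γ (law a₀ b)) B Z y u win b γ P s lam l ∧
      Real.exp (∑ x ∈ B, E'.κ x) ≤ Q ∧ ∀ x, η * E'.Λ x ≤ 1) :
    BPat lab E η μ W y a₀ b γ (Q ^ 3110 * s) (Q ^ 3110 * s)
      fun x => Real.exp (-(lam * D x ^ 2)) := by
  intro q
  have := law_prob a₀ hb
  have hN : Nice fun K => W K * cc K (y, true) q := hW.1.mul (nice_cc _ _)
  have hN0 : ∀ K, IsPort K → 0 ≤ W K * cc K (y, true) q :=
    fun K hK => mul_nonneg (hW.2.1 K hK) (cc_nonneg _ _ _)
  have hQs : 0 ≤ Q ^ 3110 * s := mul_nonneg (pow_nonneg hQ _) hs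
  rw [Iw_eq hh hη0 lab _ hN, Iw_eq hh hη0 lab _ hN, Iw_eq hh hη0 lab _ hW.1, mul_sum, mul_sum,
    mul_sum, ← sum_add_distrib]
  refine sum_le_sum fun lb _ => ?_
  have hp := lab.P_nonneg lb
  have := lab.isProb_law hh η μ lb
  rw [mul_left_comm, mul_left_comm (Q ^ 3110 * s), mul_left_comm _ (lab.P lb), ← mul_add]
  refine mul_le_mul_of_nonneg_left ?_ hp
  by_cases ha : lab.act lb y
  · obtain ⟨E', rfl, rfl, h1, h2, h3, h4, h5⟩ := henv lb ha
    rw [lab.law_update_of_act _ _ ha, lab.law_update_of_act _ _ ha, mul_assoc _ (Real.exp _),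
      ← mul_add]
    exact x1 hA h3 h2 _ h1 hW k0 k1 hP hk h4 hl h5 hη' q (hD q.1) (hD0 q.1)
  · rw [lab.law_update_of_not_act _ _ ha, lab.law_update_of_not_act _ _ ha]
    have h0 : Ip L E η (lab.law η μ lb) (fun K => W K * cc K (y, true) q) = 0 := by
      refine integral_eq_zero_of_ae ?_
      have h1 : ∀ᵐ w ∂Measure.pi (lab.law η μ lb), (w y).im = -η := by
        refine (Measure.tendsto_eval_ae_ae (i := y)).eventually (p := fun z : ℂ => z.im = -η) ?_
        rw [lab.law_of_not_act _ _ ha]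
        exact ae_lift_im _ _
      filter_upwards [h1] with w hw
      simp [cc, Kw, Lat.Km, N334.G.Lat.str, ga, hw]
    rw [h0, mul_zero, mul_zero, zero_add]
    exact mul_nonneg (mul_nonneg hQs (Real.exp_pos _).le) (Ip_nonneg hη0 _ hW.2.1)

end Crest.Agent.N334.Br
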